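import Vale.Agent.P011N.Cl.TC.NM
import Vale.Agent.P011N.Cl.MV.Move
import Vale.Agent.P011N.Cl.JT.P1

/-!
A grading which is reversed by the Galois group of a quadratic extension.
-/

namespace Vale.Agent.P011N.Cl

open Vale.Agent.P011.MPQ Vale.Agent.P011.D4 Vale.Agent.P011.D4.Oct Vale.Agent.P011.E6 Equiv Matrix
open Vale.Agent.P011.E6O Vale.Agent.P011.E6.Alb Vale.Agent.P011.H327.Star

variable {F : Type} [Field F]

theorem scalar_of_minor {ι : Type} [Fintype ι] [DecidableEq ι] (i₀ : ι)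
    (f : (ι → F) →ₗ[F] ι → F) (h : ∀ v i j, v i * f v j = v j * f v i) :
    ∃ t : F, ∀ v, f v = t • v := by
  have h1 : ∀ i j, j ≠ i → f (Pi.single i 1) j = 0 := fun i j hij => by
    simpa [hij] using h (Pi.single i 1) i j
  have h2 : ∀ i, f (Pi.single i 1) i = f (Pi.single i₀ 1) i₀ := fun i => by
    by_cases hi : i = i₀
    · rw [hi]
    · have h3 := h (Pi.single i 1 + Pi.single i₀ 1) i₀ i
      rw [map_add] at h3
      simpa [hi, Ne.symm hi, h1 i i₀ (Ne.symm hi), h1 i₀ i hi, Pi.add_apply] using h3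
  refine ⟨f (Pi.single i₀ 1) i₀, fun v => ?_⟩
  have h3 : f = f (Pi.single i₀ 1) i₀ • LinearMap.id := LinearMap.pi_ext' fun i => by
    ext j
    by_cases hij : j = i
    · simp [hij, h2]
    · simp [hij, h1 i j hij]
  rw [h3]
  simp

theorem exists_det_add {A B : M3 F} [CharZero F] (h : ∀ β, β ᵥ* A = 0 → β ᵥ* B = 0 → β = 0) :
    ∃ M : M3 F, (A + B * M).det ≠ 0 := by
  obtain ⟨g, hg⟩ := (Matrix.toLin' (fromCols A B)ᵀ).exists_leftInverse_of_injective
    (LinearMap.ker_eq_bot'.2 fun β hβ => by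
      rw [Matrix.toLin'_apply, mulVec_transpose, vecMul_fromCols] at hβ
      exact h β (funext fun i => congrFun hβ (Sum.inl i)) (funext fun i => congrFun hβ (Sum.inr i)))
  have h1 := congrArg (fun x => (LinearMap.toMatrix' x)ᵀ) hg
  simp only [LinearMap.toMatrix'_comp, LinearMap.toMatrix'_toLin', LinearMap.toMatrix'_id,
    transpose_mul, transpose_transpose, transpose_one] at h1
  rw [← fromRows_toRows (LinearMap.toMatrix' g)ᵀ, fromCols_mul_fromRows] at h1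
  generalize (LinearMap.toMatrix' g)ᵀ.toRows₁ = P at h1
  generalize (LinearMap.toMatrix' g)ᵀ.toRows₂ = Q at h1
  obtain ⟨x, -, hx⟩ := exists_ne_all (F := F) (⊤ : AddSubmonoid (F × F)) (by simp)
    (Finset.univ : Finset Bool)
    (f := fun b x => if b then (x.1 • A + x.2 • (1 : M3 F)).det else (x.1 • 1 + x.2 • P).det)
    (fun b _ => by
      cases b
      exacts [MV.pf_det ((PM.smul PM.id.fst.pf (PM.const _)).add (PM.smul PM.id.snd.pf (PM.const _))),
        MV.pf_det ((PM.smul PM.id.fst.pf (PM.const _)).add (PM.smul PM.id.snd.pf (PM.const _)))])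
    (fun b _ => by
      cases b
      exacts [⟨(1, 0), by simp⟩, ⟨(0, 1), by simp⟩])
  have h2 : (x.1 • A + x.2 • (1 : M3 F)).det ≠ 0 := hx true (Finset.mem_univ _)
  have h3 : (x.1 • (1 : M3 F) + x.2 • P).det ≠ 0 := hx false (Finset.mem_univ _)
  refine ⟨x.2 • Q * (x.1 • 1 + x.2 • P)⁻¹, fun h0 => h2 ?_⟩
  have h4 : x.1 • A + x.2 • (1 : M3 F) =
      (A + B * (x.2 • Q * (x.1 • 1 + x.2 • P)⁻¹)) * (x.1 • 1 + x.2 • P) := by
    rw [add_mul, Matrix.mul_assoc, Matrix.mul_assoc, m3_inv_mul h3, Matrix.mul_one, mul_add,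
      Matrix.mul_smul, Matrix.mul_smul, Matrix.mul_smul, Matrix.mul_one, add_assoc, ← smul_add, h1]
  rw [h4, det_mul, h0, zero_mul]

variable [CharZero F]

theorem span_twist {γ : Gl F} {d : F} (hd : d ≠ 0) (hγ : γ d = -d) (P : AddSubmonoid (M3 F))
    (hP : Submodule.span F (P : Set (M3 F)) = ⊤) (hdP : ∀ M ∈ P, d • M ∈ P) :
    ∃ P' : AddSubmonoid (M3 F × M3 F), Submodule.span F (P' : Set (M3 F × M3 F)) = ⊤ ∧
      ∀ x ∈ P', x.1 ∈ P ∧ x.2 = x.1.map γ := by
  let P' : AddSubmonoid (M3 F × M3 F) :=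
    { carrier := {x | x.1 ∈ P ∧ x.2 = x.1.map γ}
      zero_mem' := ⟨P.zero_mem, by simp⟩
      add_mem' := fun {x y} hx hy => ⟨P.add_mem hx.1 hy.1, by
        rw [Prod.snd_add, Prod.fst_add, hx.2, hy.2, Matrix.map_add _ (map_add γ)]⟩ }
  have h0 : ∀ (t : F) (M : M3 F), (t • M).map γ = γ t • M.map γ := fun t M => by
    ext i j
    simp
  refine ⟨P', ?_, fun _ h => h⟩
  have h1 : ∀ M : M3 F, (M, 0) ∈ Submodule.span F (P' : Set (M3 F × M3 F)) ∧
      (0, M.map γ) ∈ Submodule.span F (P' : Set (M3 F × M3 F)) := fun M => by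
    have hM : M ∈ Submodule.span F (P : Set (M3 F)) := by rw [hP]; trivial
    induction hM using Submodule.span_induction with
    | mem M hM =>
      have k1 : (M, M.map γ) ∈ Submodule.span F (P' : Set (M3 F × M3 F)) :=
        Submodule.subset_span ⟨hM, rfl⟩
      have k2 : (d • M, (d • M).map γ) ∈ Submodule.span F (P' : Set (M3 F × M3 F)) :=
        Submodule.subset_span ⟨hdP M hM, rfl⟩
      rw [h0, hγ] at k2
      constructor
      · convert Submodule.smul_mem _ (2 : F)⁻¹ (add_mem k1 (Submodule.smul_mem _ d⁻¹ k2)) using 1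
        refine Prod.ext ?_ ?_ <;> simp only [Prod.smul_mk, Prod.mk_add_mk] <;>
          match_scalars <;> field_simp <;> ring
      · convert Submodule.smul_mem _ (2 : F)⁻¹ (sub_mem k1 (Submodule.smul_mem _ d⁻¹ k2)) using 1
        refine Prod.ext ?_ ?_ <;> simp only [Prod.smul_mk, Prod.mk_sub_mk] <;>
          match_scalars <;> field_simp <;> ring
    | zero => simp [Prod.mk_zero_zero]
    | add M M' _ _ h h' =>
      refine ⟨by simpa using add_mem h.1 h'.1, ?_⟩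
      simpa [Matrix.map_add _ (map_add γ)] using add_mem h.2 h'.2
    | smul t M _ h =>
      exact ⟨by simpa using Submodule.smul_mem _ t h.1,
        by simpa [h0] using Submodule.smul_mem _ (γ t) h.2⟩
  refine eq_top_iff.2 fun x _ => ?_
  simpa [map_map_symm, -Matrix.map_map] using add_mem (h1 x.1).1 (h1 (x.2.map γ.symm)).2

theorem exists_gram {γ : Gl F} {d : F} (hd : d ≠ 0) (hγ : γ d = -d) (P : AddSubmonoid (M3 F))
    (hP : Submodule.span F (P : Set (M3 F)) = ⊤) (hdP : ∀ M ∈ P, d • M ∈ P) {A B C D : M3 F}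
    (h : ∀ β, β ᵥ* A = 0 → β ᵥ* B = 0 → β = 0) :
    ∃ M ∈ P, (A + B * M.map γ + Mᵀ * C + Mᵀ * D * M.map γ).det ≠ 0 := by
  obtain ⟨P', h1, h2⟩ := span_twist hd hγ P hP hdP
  obtain ⟨M, hM⟩ := exists_det_add h
  have e : PM F fun x : M3 F × M3 F => x.1ᵀ :=
    PM.id.fst.map (Matrix.transposeLinearEquiv (Fin 3) (Fin 3) F F).toLinearMap
  obtain ⟨x, h3, h4⟩ := exists_ne_pf P' h1
    (f := fun x => (A + B * x.2 + x.1ᵀ * C + x.1ᵀ * D * x.2).det)
    (MV.pf_det ((((PM.const A).add (PM.id.snd.map (LinearMap.mulLeft F B))).add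
      (e.map (LinearMap.mulRight F C))).add
      (PM.bilin (LinearMap.mul F (M3 F)) (e.map (LinearMap.mulRight F D)) PM.id.snd)))
    ⟨(0, M), by simpa using hM⟩
  exact ⟨x.1, (h2 x h3).1, by rwa [(h2 x h3).2] at h4⟩

theorem sl1_E01 (x : J1 F) :
    sl1 (single 0 1 1) x = pP (tX x 1) + pR fun i => -tZ x i 0 := by
  rw [sl1_apply, pP, pR, mkT_add, mkT_inj]
  refine ⟨?_, by simp, ?_⟩
  · ext i j
    fin_cases i <;> simp [vecMulVec_apply, Matrix.mul_apply, Fin.sum_univ_three]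
  · ext i j
    fin_cases j <;> simp [vecMulVec_apply, Matrix.mul_apply, Fin.sum_univ_three]

theorem cross_pPR (β z : Fin 3 → F) : cross (pP β + pR z) (pP β + pR z) = 0 := by
  rw [pP, pR, mkT_add, cross_mkT, mkT_eq_zero, mx_eq, mx_eq (_ + 0)]
  refine ⟨?_, ?_, ?_⟩ <;> ext i j <;> fin_cases i <;> fin_cases j <;>
    simp [vecMulVec_apply, mx_eq, Matrix.mul_apply, Fin.sum_univ_three]

theorem extremal_dr {D : Module.End F (J1 F)} (hD : Dr D) :
    ∃ t : F, ∀ x, sl1 (single 0 1 1) (D (sl1 (single 0 1 1) x)) = t • sl1 (single 0 1 1) x := by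
  let ι : (Fin 3 ⊕ Fin 3 → F) →ₗ[F] J1 F :=
    { toFun := fun v => pP (fun i => v (Sum.inl i)) + pR fun i => v (Sum.inr i)
      map_add' := fun v w => by
        rw [add_add_add_comm, ← pP_add, ← pR_add]
        rfl
      map_smul' := fun t v => by
        rw [smul_add, ← pP_smul, ← pR_smul]
        rfl }
  let π : J1 F →ₗ[F] (Fin 3 ⊕ Fin 3 → F) :=
    { toFun := fun x => Sum.elim (tX x 1) fun i => -tZ x i 0
      map_add' := fun x y => funext fun i => by cases i <;> simp [add_comm]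
      map_smul' := fun t x => funext fun i => by cases i <;> simp }
  have h0 : ∀ x, sl1 (single 0 1 1) x = ι (π x) := sl1_E01
  obtain ⟨t, ht⟩ := scalar_of_minor (Sum.inl 0) (π ∘ₗ D ∘ₗ ι) fun v => by
    have k : ∀ z, tf (cross (ι v) z) (D (ι v)) = 0 := fun z => by
      have k1 := hD.pol (ι v) (ι v) z
      rw [show cross (ι v) (ι v) = 0 from cross_pPR _ _, tf_zero_left, cross_comm z] at k1
      linear_combination (1 / 2 : F) * k1
    change ∀ i j, v i * π (D (ι v)) j = v j * π (D (ι v)) i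
    obtain ⟨U, V, W, hU⟩ := exists_mkT (D (ι v))
    rw [hU] at k ⊢
    have k0 : ι v = mkT (vecMulVec (Pi.single 0 1) fun i => v (Sum.inl i)) 0
        (vecMulVec (fun i => v (Sum.inr i)) (Pi.single 1 1)) := by simp [ι, pP, pR, mkT_add]
    rw [k0] at k
    have k1 : ∀ i j, v (Sum.inl i) * -W j 0 = v (Sum.inr j) * U 1 i := fun i j => by
      have := k (mkT 0 (single i j 1) 0)
      rw [cross_mkT, tf_mkT] at this
      fin_cases i <;> fin_cases j <;>
        simp [Matrix.trace_fin_three, Matrix.mul_apply, Fin.sum_univ_three, vecMulVec_apply]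
          at this ⊢ <;> linear_combination this
    have k2 := fun i => k (mkT (single 2 i 1) 0 0)
    have k3 := fun i => k (mkT 0 0 (single i 2 1))
    have a0 := k2 0
    have a1 := k2 1
    have a2 := k2 2
    have b0 := k3 0
    have b1 := k3 1
    have b2 := k3 2
    rw [cross_mkT, tf_mkT, mx_zero_right, mx_zero_right, mx_eq] at a0 a1 a2
    rw [cross_mkT, tf_mkT, mx_zero_right, mx_zero_right, mx_eq] at b0 b1 b2
    simp [Matrix.trace_fin_three, vecMul, dotProduct, Fin.sum_univ_three, vecMulVec_apply,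
      Matrix.mul_apply] at a0 a1 a2 b0 b1 b2
    rintro (i | i) (j | j)
    · fin_cases i <;> fin_cases j <;> simp [π] <;>
        first
        | linear_combination a0 | linear_combination -a0 | linear_combination a1
        | linear_combination -a1 | linear_combination a2 | linear_combination -a2
    · simpa [π] using k1 i j
    · simpa [π] using (k1 j i).symm
    · fin_cases i <;> fin_cases j <;> simp [π] <;>
        first
        | linear_combination b0 | linear_combination -b0 | linear_combination b1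
        | linear_combination -b1 | linear_combination b2 | linear_combination -b2
  refine ⟨t, fun x => ?_⟩
  rw [h0, h0 x, ← map_smul, ← ht]
  rfl

/-- The root element is extremal. -/
theorem extremal_E01 {Z : Module.End F (W1 F)} (hZ : InS6 Z) :
    ∃ t : F, slL (single 0 1 1) * Z * slL (single 0 1 1) = t • slL (single 0 1 1) := by
  rw [inS6_iff] at hZ
  obtain ⟨t, ht⟩ := extremal_dr (s6_dr1 hZ)
  refine ⟨t, LinearMap.ext fun v => ?_⟩
  rw [Module.End.mul_apply, Module.End.mul_apply, s6_apply hZ, LinearMap.smul_apply, slL_apply,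
    slL_apply, slA_eq, slA_eq]
  refine Prod.ext (ht _) (eq_of_tf fun x => ?_)
  have k1 := tf_sl1 (single 0 1 1) x (bk2 Z (sl1 (single 0 1 1) v.2))
  have k2 := s6_du hZ (sl1 (single 0 1 1) x) (sl1 (single 0 1 1) v.2)
  have k3 := tf_sl1 (single 0 1 1) (bk1 Z (sl1 (single 0 1 1) x)) v.2
  have k4 := tf_sl1 (single 0 1 1) x v.2
  rw [ht, tf_smul_left] at k3
  simp only [Prod.smul_snd, tf_smul_left]
  rw [tf_comm, tf_comm _ x]
  linear_combination k1 - k2 + k3 - t * k4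

omit [CharZero F] in
theorem tr_mul (ψ ψ' : Perm (W1 F)) (Φ : Subgroup (Perm (W1 F))) :
    tr (ψ * ψ') Φ = tr ψ' (tr ψ Φ) := rfl

/-- The Gram matrix on the graph of a matrix. -/
theorem gram_ex {γ : Gl F} {φ : W1 F → W1 F} (hs : Semi γ φ) (M : M3 F) :
    (Matrix.of fun i j => tf (ex M (pP (Pi.single i 1), 0)).1
      (φ (ex M (pP (Pi.single j 1), 0))).2 : M3 F) =
    gramP φ + (Matrix.of fun i j => tf (pP (Pi.single i 1)) (φ (pR (Pi.single j 1), 0)).2) *
      M.map γ + Mᵀ * (Matrix.of fun i j => tf (pR (Pi.single i 1)) (φ (pP (Pi.single j 1), 0)).2) +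
      Mᵀ * (Matrix.of fun i j => tf (pR (Pi.single i 1)) (φ (pR (Pi.single j 1), 0)).2) *
        M.map γ := by
  have h1 : ∀ i, pR (M *ᵥ Pi.single i 1) = M 0 i • pR (Pi.single 0 1) +
      M 1 i • pR (Pi.single 1 1) + M 2 i • pR (Pi.single 2 1) := fun i => by
    rw [← pR_smul, ← pR_smul, ← pR_smul, ← pR_add, ← pR_add]
    congr 1
    ext j
    fin_cases j <;> simp
  have h2 : ∀ x y : J1 F, φ (x + y, 0) = φ (x, 0) + φ (y, 0) := fun x y => by
    rw [← hs.add]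
    simp
  have h3 : ∀ (t : F) (y : J1 F), φ (t • y, 0) = γ t • φ (y, 0) := fun x y => by
    rw [← hs.smul]
    simp
  ext i j
  simp only [of_apply, ex_pP0, h1, h2, h3, Prod.snd_add, Prod.smul_snd, tf_add_left, tf_add_right,
    tf_smul_left, tf_smul_right, gramP, Matrix.add_apply, Matrix.mul_apply, Fin.sum_univ_three,
    transpose_apply, map_apply]
  ring

theorem tf_S6 {g : Perm (W1 F)} (hg : g ∈ S6 (1 : Fˣ) 1 1) (x : J1 F) (v : W1 F) :
    tf (g (x, 0)).1 (g v).2 = tf x v.2 := by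
  have h := sim6_one.2 (mem_S6.1 hg)
  obtain ⟨y, z⟩ := v
  rw [h.inl, h.apply_false, h.pr.tf, one_mul]
  rfl

/-- The form is nondegenerate on the image of the root element. -/
theorem nondeg_of_opp {γ : Gl F} {ν₁ ν₂ m t : F} {φ : Perm (W1 F)} (hs : Sim6 γ true ν₁ ν₂ m φ)
    (ht : t ≠ 0) (h : ∀ v, slL (single 0 1 1) (φ (slL (single 0 1 1) (φ⁻¹ (slL (single 0 1 1) v)))) =
      t • slL (single 0 1 1) v) (β : Fin 3 → F) (h1 : β ᵥ* gramP φ = 0)
    (h2 : β ᵥ* (Matrix.of fun i j =>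
      tf (pP (Pi.single i 1)) (φ (pR (Pi.single j 1), 0)).2 : M3 F) = 0) : β = 0 := by
  have k1 : ∀ y : Fin 3 → J1 F, β ᵥ* (Matrix.of fun i j =>
      tf (pP (Pi.single i 1)) (φ (y j, 0)).2 : M3 F) = 0 → ∀ z : Fin 3 → F,
      tf (pP β) (φ (∑ i, z i • y i, 0)).2 = 0 := fun y hy z => by
    have e := fun j => congrFun hy j
    simp only [vecMul, dotProduct, of_apply, Fin.sum_univ_three, Pi.zero_apply] at e
    rw [(MV.semi_pair hs.semi z y).1, MV.pP_sum β]
    simp only [Fin.sum_univ_three, Prod.snd_add, Prod.smul_snd, tf_add_left, tf_add_right,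
      tf_smul_left, tf_smul_right]
    linear_combination γ (z 0) * e 0 + γ (z 1) * e 1 + γ (z 2) * e 2
  have k2 : ∀ z, pR z = ∑ i, z i • pR (Pi.single i (1 : F)) := fun z => by
    simp only [Fin.sum_univ_three, ← pR_smul, ← pR_add]
    congr 1
    ext j
    fin_cases j <;> simp
  obtain ⟨ξ, hξ⟩ := hs.pr.b1.2 (pP β)
  have k3 : φ⁻¹ (pP β, 0) = (0, ξ) := by rw [Perm.inv_eq_iff_eq, hs.inr_true, hξ]
  have k4 : sl1 (single 0 1 1) ξ = 0 := eq_zero_of_tf fun w => by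
    have e1 := tf_sl1 (single 0 1 1) w ξ
    have e2 := hs.pr.tf ξ (sl1 (single 0 1 1) w)
    have e3 : sn6 φ true (sl1 (single 0 1 1) w) = (φ (pP (tX w 1), 0)).2 +
        (φ (pR fun i => -tZ w i 0, 0)).2 := by
      rw [sl1_E01, hs.pr.s2.add]
      rfl
    rw [hξ, e3, tf_add_right, MV.pP_sum (tX w 1), k1 _ h1, k2, k1 _ h2, add_zero, eq_comm,
      mul_eq_zero, map_eq_zero] at e2
    rw [tf_comm, e2.resolve_left hs.ne.2.2, zero_add] at e1
    rw [tf_comm, e1]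
  have k5 : slL (single 0 1 1) (pS β, 0) = (pP β, 0) := by
    rw [slL_apply, slA_eq, map_zero, sl1_E01]
    simp [pS, show vecMulVec (Pi.single (1 : Fin 3) (1 : F)) β 1 = β by ext; simp [vecMulVec_apply],
      show (fun _ : Fin 3 => (0 : F)) = 0 from rfl]
  have k6 := h (pS β, 0)
  rw [k5, k3, slL_apply _ (0, ξ), slA_eq, k4, map_zero, Prod.mk_zero_zero, hs.semi.zero, map_zero,
    eq_comm, smul_eq_zero] at k6
  exact pP_inj ((congrArg Prod.fst (k6.resolve_left ht)).trans pP_zero.symm)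

/-- (GEN) -/
theorem genStmt : GENStmt := by
  intro F _ _ Γ Γ' Φ d hΦ hle hd _ hG ⟨φ, hφ, γ, hγ, hs, hγd, x, hx⟩ p hp r hr hrs hrd T hT
  have hle' : stb Γ' d ≤ Γ := stb_le.trans hle
  obtain ⟨T₀, ψ₀, hch, -, -, hcm, hfix, htr⟩ := MV.n0 (Γ₀ := stb Γ' d) nfStmt hΦ hle' hG
  obtain ⟨μ₁, μ₂, μ, hψ₀⟩ := hch.sim
  have hΦ₁ := hΦ.tr hψ₀
  have hG₁ := MV.grOn_tr hψ₀ hcm hG
  have hΦ₀ := hΦ₁.res hle'
  have e : ∀ χ : Perm (W1 F), ψ₀.permCongr (ψ₀.symm.permCongr χ) = χ :=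
    ψ₀.permCongr.apply_symm_apply
  have hφ₁ : ψ₀.symm.permCongr φ ∈ tr ψ₀ Φ := symm_mem_tr.2 hφ
  obtain ⟨ε, ν₁, ν₂, m, k0⟩ := hΦ.sim_of hφ hs
  obtain rfl : ε = true := by
    cases ε
    · exact absurd (k0.inner_iff.2 rfl x) hx
    · rfl
  obtain ⟨ν₁, ν₂, m, k1⟩ := hψ₀.tr (γ := γ) ((e φ).symm ▸ k0)
  generalize ψ₀.symm.permCongr φ = φ₁ at hφ₁ k1
  have hE : ∀ i j : Fin 3, ∀ χ ∈ res (tr ψ₀ Φ) (stb Γ' d), ∀ v,
      χ (slL (single i j 1) v) = slL (single i j 1) (χ v) := by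
    rintro i j χ ⟨h1, δ, h2, h3⟩ v
    rw [slL_apply, (htr χ h1 δ h2 h3).one, slL_apply]
    simp
  obtain ⟨g, hg, t, ht, k2⟩ := p1Stmt F 1 1 1 _ _ d hΦ₀ hd (fun δ hδ => hδ.2)
    (slL (single 0 1 1)) (slL (single 1 0 1)) (inS6_slL (by simp)) (inS6_slL (by simp))
    (fun h => by
      have h1 := sl1_inj (δ := single 0 1 (1 : F)) (δ' := 0) fun x => by
        rw [map_zero]
        exact congrArg Prod.fst (LinearMap.congr_fun h (x, 0))
      simpa using congrFun (congrFun h1 0) 1)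
    (slL_sq (by simp)) (slL_sq (by simp)) (by simp [slL_mul3]) (by simp [slL_mul3])
    (fun Z => extremal_E01)
    (fun χ hχ v => by
      obtain ⟨δ, -, h3⟩ := hΦ₀.ov.semi χ hχ
      simp only [LinearMap.sub_apply, Module.End.mul_apply, h3.sub, hE _ _ χ hχ])
    φ₁ γ true ν₁ ν₂ m k1 hγd
  have hg' := sim6_one.2 (mem_S6.1 hg.1)
  have k3 := ((hg'.symm.comp k1).comp hg').cast (γ' := γ) (ε' := true) (by simp) (by simp)
    rfl rfl rfl
  change Sim6 _ _ _ _ _ (g⁻¹ * φ₁ * g : Perm (W1 F)) at k3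
  obtain ⟨M, hM, k4⟩ := exists_gram hd hγd (fxM _ hΦ₀.ov)
    (span_fxM hΦ₀ (by
      rintro χ ⟨h1, δ, h2, h3⟩
      obtain ⟨ε, _, _, _, h4⟩ := hΦ₁.sim_of h1 h3
      obtain ⟨b, c, l, h5, -⟩ := MV.tnf_of_act nfStmt h4 (hG₁ χ h1 δ h3 h2) (htr χ h1 δ h2 h3)
        (by simp)
      exact ⟨δ, ε, b, c, l, _, h3, h5⟩))
    (fun M hM => fxM_smul hM fun δ hδ => hδ.2) (nondeg_of_opp k3 ht k2)
  rw [← gram_ex k3.semi] at k4
  have hg₁ := mul_mem hg (fxM_ex hM)
  have hc₁ : ∀ χ ∈ tr ψ₀ Φ, ∀ δ ∈ Γ', δ d = d → Semi δ χ → ∀ v,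
      χ ((g * ex M) v) = (g * ex M) (χ v) := fun χ h1 δ h2 h3 h4 v =>
    congrArg (fun f : Perm (W1 F) => f v) ((mem_Pts.1 hg₁).2 χ ⟨h1, δ, ⟨h2, h3⟩, h4⟩)
  obtain ⟨ψ₁, h1, h2, h3, h4⟩ := MV.move grStmt hΦ₁ hG₁ hφ₁ hγ hγd k1 hg₁.1 hc₁ (by
    refine fun h0 => k4 (Eq.trans (congrArg det (congrArg Matrix.of ?_)) h0)
    funext i j
    simp only [Perm.mul_apply]
    rw [ex_pP0 M (Pi.single i 1), ← tf_S6 hg.1]
    simp)
  have h5 : Sim6 id false μ₁ μ₂ μ (ψ₀ * ψ₁ : Perm (W1 F)) :=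
    sim6_one.1 (((sim6_one.2 hψ₀).comp (sim6_one.2 (mem_S6.1 h1))).cast (mul_one _) rfl (by simp)
      (by simp) (by simp))
  refine ⟨ψ₀ * ψ₁, _, _, _, h5, h3, h4, (ψ₀ * ψ₁).symm.permCongr p, symm_mem_tr.2 hp,
    (semi_congr h5.semi.symm_lin).2 hrs, fun β => ?_⟩
  have h6 : ∀ v, p (ψ₀ v) = ψ₀ (ψ₀.symm.permCongr p v) := fun v => by simp
  have h7 : ∀ β, ψ₀.symm.permCongr p (pP β, 0) = (pP (T β), 0) := fun β =>
    ψ₀.injective (by rw [← h6, hfix, hfix, hT])
  rw [permCongr_apply, symm_symm, symm_apply_eq, Perm.mul_apply, Perm.mul_apply, h6, h2, h2,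
    hc₁ _ (symm_mem_tr.2 hp) r hr hrd ((MV.semi_congr hψ₀).1 (by rwa [e])), h7]

end Vale.Agent.P011N.Cl
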