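import Vale.Agent.P011N.Cl.TC.Mk

/-!
The coordinates of the first Tits construction: the similitudes which permute the components.
-/

namespace Vale.Agent.P011N.Cl

open Vale.Agent.P011.MPQ Vale.Agent.P011.D4 Vale.Agent.P011.D4.Oct Vale.Agent.P011.E6 Equiv Matrix
open Vale.Agent.P011.E6O Vale.Agent.P011.E6.Alb

variable {F : Type} [Field F]

/-- The relations between the determinants. -/
structure TD (a b c : M3 F) (l : Fin 3 → F) : Prop where
  da : a.det ≠ 0
  db : b.det ≠ 0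
  dc : c.det ≠ 0
  ne : ∀ i, l i ≠ 0
  r0 : l 0 ^ 2 * a.det = l 1 * l 2 * b.det
  r1 : l 1 ^ 2 * b.det = l 2 * l 0 * c.det
  r2 : l 2 ^ 2 * c.det = l 0 * l 1 * a.det

variable {a b c : M3 F} {l : Fin 3 → F} {m : F}

theorem TNF.td {γ : F → F} {ε κ : Bool} {φ : W1 F → W1 F} (h : TNF γ ε κ a b c l m φ) :
    TD a b c l := ⟨h.da, h.db, h.dc, h.ne, h.r0, h.r1, h.r2⟩

theorem td_one (h : a.det = 1) : TD a 1 1 (fun _ => 1) :=
  ⟨by simp [h], by simp, by simp, fun _ => one_ne_zero, by simp [h], by simp, by simp [h]⟩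

theorem TD.dual (h : TD a b c l) (hm : m ≠ 0) : TD a c b ![m / l 2, m / l 1, m / l 0] := by
  have h0 := h.ne 0
  have h1 := h.ne 1
  have h2 := h.ne 2
  refine ⟨h.da, h.dc, h.db, fun i => ?_, ?_, ?_, ?_⟩
  · fin_cases i <;> simp [*]
  · simp only [cons_val]
    field_simp
    linear_combination -h.r2
  · simp only [cons_val]
    field_simp
    linear_combination -h.r1
  · simp only [cons_val]
    field_simp
    linear_combination -h.r0

theorem m3_mul_inv (h : a.det ≠ 0) : a * a⁻¹ = 1 := Matrix.mul_nonsing_inv a h.isUnit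

theorem m3_inv_mul (h : a.det ≠ 0) : a⁻¹ * a = 1 := Matrix.nonsing_inv_mul a h.isUnit

theorem m3_mul_inv' (h : a.det ≠ 0) (X : M3 F) : a * (a⁻¹ * X) = X := by
  rw [← Matrix.mul_assoc, m3_mul_inv h, Matrix.one_mul]

theorem m3_inv_mul' (h : a.det ≠ 0) (X : M3 F) : a⁻¹ * (a * X) = X := by
  rw [← Matrix.mul_assoc, m3_inv_mul h, Matrix.one_mul]

theorem m3_inv_inv (h : a.det ≠ 0) : a⁻¹⁻¹ = a := Matrix.nonsing_inv_nonsing_inv a h.isUnit

theorem m3_det_inv (a : M3 F) : a⁻¹.det = a.det⁻¹ := by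
  rw [Matrix.det_nonsing_inv, Ring.inverse_eq_inv']

theorem m3_inv_smul {s : F} (hs : s ≠ 0) (h : a.det ≠ 0) : (s • a)⁻¹ = s⁻¹ • a⁻¹ :=
  Matrix.inv_eq_left_inv (by
    rw [Matrix.smul_mul, Matrix.mul_smul, smul_smul, inv_mul_cancel₀ hs, one_smul, m3_inv_mul h])

theorem m3_map_inv {F' : Type} [Field F'] {R : Type} [FunLike R F F'] [RingHomClass R F F']
    (ι : R) (h : a.det ≠ 0) : a⁻¹.map ι = (a.map ι)⁻¹ :=
  (Matrix.inv_eq_left_inv (by
    rw [← Matrix.map_mul, m3_inv_mul h, Matrix.map_one _ (map_zero ι) (map_one ι)])).symm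

theorem m3_det_map {F' : Type} [Field F'] {R : Type} [FunLike R F F'] [RingHomClass R F F']
    (ι : R) (a : M3 F) : (a.map ι).det = ι a.det := by
  simp [Matrix.det_fin_three]

variable [CharZero F]

/-- The action on one summand. -/
noncomputable def act1 (a b c : M3 F) (l : Fin 3 → F) : J1 F →ₗ[F] J1 F where
  toFun x := mkT (l 0 • (a * tX x * b⁻¹)) (l 1 • (b * tY x * c⁻¹)) (l 2 • (c * tZ x * a⁻¹))
  map_add' x y := by simp [mkT_add, add_mul, mul_add]
  map_smul' t x := by simp [mkT_smul, smul_comm t]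

theorem act1_apply (a b c : M3 F) (l : Fin 3 → F) (x : J1 F) : act1 a b c l x =
    mkT (l 0 • (a * tX x * b⁻¹)) (l 1 • (b * tY x * c⁻¹)) (l 2 • (c * tZ x * a⁻¹)) := rfl

theorem act1_mkT (a b c : M3 F) (l : Fin 3 → F) (X Y Z : M3 F) : act1 a b c l (mkT X Y Z) =
    mkT (l 0 • (a * X * b⁻¹)) (l 1 • (b * Y * c⁻¹)) (l 2 • (c * Z * a⁻¹)) := by
  simp [act1_apply]

theorem TD.cub (h : TD a b c l) (x : J1 F) : cub (act1 a b c l x) = l 0 * l 1 * l 2 * cub x := by
  have h0 := h.da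
  have h1 := h.db
  have h2 := h.dc
  rw [act1_apply, cub_mkT, cub_T]
  simp only [Matrix.det_smul, Matrix.det_mul, m3_det_inv, Fintype.card_fin, Matrix.smul_mul,
    Matrix.mul_smul, Matrix.trace_smul, smul_eq_mul, Matrix.mul_assoc, m3_inv_mul' h1,
    m3_inv_mul' h2]
  rw [Matrix.trace_mul_comm a]
  simp only [Matrix.mul_assoc, m3_inv_mul h0, Matrix.mul_one]
  have e0 : l 0 ^ 3 * (a.det * b.det⁻¹) = l 0 * l 1 * l 2 := by
    field_simp
    linear_combination l 0 * h.r0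
  have e1 : l 1 ^ 3 * (b.det * c.det⁻¹) = l 0 * l 1 * l 2 := by
    field_simp
    linear_combination l 1 * h.r1
  have e2 : l 2 ^ 3 * (c.det * a.det⁻¹) = l 0 * l 1 * l 2 := by
    field_simp
    linear_combination l 2 * h.r2
  linear_combination (tX x).det * e0 + (tY x).det * e1 + (tZ x).det * e2

theorem TD.tf (h : TD a b c l) (m : F) (x y : J1 F) :
    tf (act1 a b c l x) (act1 a c b ![m / l 2, m / l 1, m / l 0] y) = m * tf x y := by
  have h0 := h.ne 0
  have h1 := h.ne 1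
  have h2 := h.ne 2
  rw [act1_apply, act1_apply, tf_mkT, tf_T]
  simp only [Matrix.smul_mul, Matrix.mul_smul, Matrix.trace_smul, smul_eq_mul, Matrix.mul_assoc,
    m3_inv_mul' h.da, m3_inv_mul' h.db, m3_inv_mul' h.dc, cons_val]
  rw [Matrix.trace_mul_comm a, Matrix.trace_mul_comm b, Matrix.trace_mul_comm c]
  simp only [Matrix.mul_assoc, m3_inv_mul h.da, m3_inv_mul h.db, m3_inv_mul h.dc, Matrix.mul_one]
  field_simp

/-- The action on one summand, as a bijection. -/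
noncomputable def TD.e1 (h : TD a b c l) : J1 F ≃ₗ[F] J1 F :=
  LinearEquiv.ofLinearMap (act1 a b c l) (act1 a⁻¹ b⁻¹ c⁻¹ fun i => (l i)⁻¹)
    (LinearMap.ext fun x => by
      simp [act1_apply, smul_smul, h.ne, Matrix.mul_assoc, h.da, h.db, h.dc, mkT_eta])
    (LinearMap.ext fun x => by
      simp [act1_apply, smul_smul, h.ne, Matrix.mul_assoc, h.da, h.db, h.dc, mkT_eta])

theorem TD.e1_apply (h : TD a b c l) (x : J1 F) : h.e1 x = act1 a b c l x := rfl

/-- The linear similitude with the given data. -/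
noncomputable def TD.act (h : TD a b c l) (hm : m ≠ 0) : Perm (W1 F) := pr6 h.e1 (h.dual hm).e1

theorem TD.act_apply (h : TD a b c l) (hm : m ≠ 0) (v : W1 F) :
    h.act hm v = (act1 a b c l v.1, act1 a c b ![m / l 2, m / l 1, m / l 0] v.2) := rfl

theorem TD.sim (h : TD a b c l) (hm : m ≠ 0) :
    Sim6 id false (l 0 * l 1 * l 2) (m ^ 3 / (l 0 * l 1 * l 2)) m (h.act hm) := by
  have h0 := h.ne 0
  have h1 := h.ne 1
  have h2 := h.ne 2
  refine sim6_pr6 h.cub (fun x => ((h.dual hm).cub x).trans ?_) (h.tf m) (by simp [*])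
  simp only [cons_val]
  field_simp

theorem TD.tnf (h : TD a b c l) (hm : m ≠ 0) : TNF id false false a b c l m (h.act hm) where
  da := h.da
  db := h.db
  dc := h.dc
  ne := h.ne
  ne' := hm
  fst X Y Z := by simp [TD.act_apply, act1_mkT, inj, tp]
  snd X Y Z := by simp [TD.act_apply, act1_mkT, inj, tp]
  r0 := h.r0
  r1 := h.r1
  r2 := h.r2

/-- The action of a matrix of determinant one on the first factor. -/
noncomputable def actA (a : M3 F) (h : a.det = 1) : Perm (W1 F) := (td_one h).act one_ne_zero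

theorem actA_mem (h : a.det = 1) : actA a h ∈ S6 (1 : Fˣ) 1 1 :=
  mem_S6.2 (by simpa [actA] using (td_one h).sim one_ne_zero)

theorem actA_apply (h : a.det = 1) (v : W1 F) : actA a h v =
    (mkT (a * tX v.1) (tY v.1) (tZ v.1 * a⁻¹), mkT (a * tX v.2) (tY v.2) (tZ v.2 * a⁻¹)) := by
  simp [actA, TD.act_apply, act1_apply]

theorem actA_inj (h : a.det = 1) (ε : Bool) (X Y Z : M3 F) :
    actA a h (inj ε (mkT X Y Z)) = inj ε (mkT (a * X) Y (Z * a⁻¹)) := by
  cases ε <;> simp [actA_apply, inj]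

/-! The transposition. -/

/-- The transposition on one summand. -/
def tp1 : J1 F ≃ₗ[F] J1 F where
  toFun x := mkT (tZ x)ᵀ (tY x)ᵀ (tX x)ᵀ
  invFun x := mkT (tZ x)ᵀ (tY x)ᵀ (tX x)ᵀ
  left_inv x := by simp [mkT_eta]
  right_inv x := by simp [mkT_eta]
  map_add' x y := by simp [mkT_add]
  map_smul' t x := by simp [mkT_smul]

theorem tp1_apply (x : J1 F) : tp1 x = mkT (tZ x)ᵀ (tY x)ᵀ (tX x)ᵀ := rfl

theorem tp1_mkT (X Y Z : M3 F) : tp1 (mkT X Y Z) = mkT Zᵀ Yᵀ Xᵀ := by simp [tp1_apply]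

theorem tp1_tp1 (x : J1 F) : tp1 (tp1 x) = x := tp1.left_inv x

theorem cub_tp1 (x : J1 F) : cub (tp1 x) = cub x := by
  rw [tp1_apply, cub_mkT, cub_T, ← Matrix.transpose_mul, ← Matrix.transpose_mul,
    Matrix.trace_transpose, Matrix.det_transpose, Matrix.det_transpose, Matrix.det_transpose,
    Matrix.mul_assoc]
  ring

theorem tf_tp1 (x y : J1 F) : tf (tp1 x) (tp1 y) = tf x y := by
  rw [tp1_apply, tp1_apply, tf_mkT, tf_T]
  simp only [← Matrix.transpose_mul, Matrix.trace_transpose]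
  rw [Matrix.trace_mul_comm (tY y), Matrix.trace_mul_comm (tX y), Matrix.trace_mul_comm (tZ y)]
  ring

/-- The transposition. -/
def tp6 : Perm (W1 F) := pr6 tp1 tp1

theorem tp6_apply (v : W1 F) : tp6 v = (tp1 v.1, tp1 v.2) := rfl

theorem tp6_mem : (tp6 : Perm (W1 F)) ∈ S6 (1 : Fˣ) 1 1 := pr6_mem cub_tp1 cub_tp1 tf_tp1

theorem tp6_tp6 (v : W1 F) : tp6 (tp6 v) = v := Prod.ext (tp1_tp1 _) (tp1_tp1 _)

theorem tp6_inj (ε : Bool) (x : J1 F) : tp6 (inj ε x) = inj ε (tp1 x) := by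
  cases ε <;> simp [tp6_apply, inj]

theorem tp6_slA (δ : M3 F) (v : W1 F) : tp6 (slA δ v) = slA (-δᵀ) (tp6 v) := by
  simp [tp6_apply, slA, tp1_apply]

omit [CharZero F] in
theorem sw6_slA (δ : M3 F) (v : W1 F) : sw6 (slA δ v) = slA δ (sw6 v) := rfl

omit [CharZero F] in
theorem sw6_inj (ε : Bool) (x : J1 F) : sw6 (inj ε x) = inj (!ε) x := by cases ε <;> rfl

/-! The action on the coefficients. -/

theorem jA_T (γ : Gl F) (x : J1 F) :
    (jA γ x : J1 F) = mkT ((tX x).map γ) ((tY x).map γ) ((tZ x).map γ) := by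
  rw [← jA_mkT, mkT_eta]

theorem map_symm_map (γ : Gl F) (X : M3 F) : (X.map γ).map γ.symm = X := by
  ext i j
  simp

theorem map_map_symm (γ : Gl F) (X : M3 F) : (X.map γ.symm).map γ = X := by
  ext i j
  simp

/-- The action of an automorphism of the field on the coefficients. -/
def jW (γ : Gl F) : Perm (W1 F) where
  toFun := j6 γ
  invFun := j6 γ.symm
  left_inv v := by simp [j6, jA_T, map_symm_map, mkT_eta, -Matrix.map_map]
  right_inv v := by simp [j6, jA_T, map_map_symm, mkT_eta, -Matrix.map_map]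

theorem jW_apply (γ : Gl F) (v : W1 F) : jW γ v = (jA γ v.1, jA γ v.2) := rfl

theorem jW_inj (γ : Gl F) (ε : Bool) (X Y Z : M3 F) :
    jW γ (inj ε (mkT X Y Z)) = inj ε (mkT (X.map γ) (Y.map γ) (Z.map γ)) := by
  cases ε <;> simp [jW_apply, inj, jA_mkT, jA_zero]

theorem sim6_jW (γ : Gl F) : Sim6 γ false 1 1 1 (jW γ) where
  semi t x y := by
    simp only [jW_apply, Prod.fst_add, Prod.snd_add, Prod.smul_fst, Prod.smul_snd, jA_add,
      jA_smul, Prod.smul_mk, Prod.mk_add_mk]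
  c1 x := by rw [jW_apply, cub_jA par_one, one_mul]; rfl
  c2 x := by rw [jW_apply, cub_jA par_one, one_mul]; rfl
  tf x := by rw [jW_apply, tf_jA par_one, one_mul]
  ne := ⟨one_ne_zero, one_ne_zero, one_ne_zero⟩

theorem jW_slA (γ : Gl F) (δ : M3 F) (v : W1 F) :
    jW γ (slA δ v) = slA (δ.map γ) (jW γ v) := by
  simp [jW_apply, slA, jA_T, Matrix.map_mul, Matrix.map_neg]

/-- The standard map. -/
def stW (γ : Gl F) (κ : Bool) : Perm (W1 F) := (if κ then tp6 else 1) * jW γ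

theorem stW_inj (γ : Gl F) (κ ε : Bool) (X Y Z : M3 F) :
    stW γ κ (inj ε (mkT X Y Z)) = inj ε (mkT (tp κ γ X Z) (tp κ γ Y Y) (tp κ γ Z X)) := by
  cases κ <;> simp [stW, jW_inj, tp, tp6_inj, tp1_mkT]

theorem sim6_stW (γ : Gl F) (κ : Bool) : Sim6 γ false 1 1 1 (stW γ κ) := by
  cases κ
  · simpa [stW] using sim6_jW γ
  · exact ((sim6_one.2 (mem_S6.1 tp6_mem)).comp (sim6_jW γ)).cast (one_mul _) rfl (by simp)
      (by simp) (by simp)

/-- The exchange of the two summands, or the identity. -/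
def swE (ε : Bool) : Perm (W1 F) := if ε then sw6 else 1

omit [CharZero F] in
theorem swE_inj (ε δ : Bool) (x : J1 F) : swE ε (inj δ x) = inj (xor ε δ) x := by
  cases ε <;> cases δ <;> rfl

omit [CharZero F] in
theorem swE_swE (ε : Bool) (v : W1 F) : swE ε (swE ε v) = v := by cases ε <;> rfl

omit [CharZero F] in
theorem sim6_swE (ε : Bool) : Sim6 id ε 1 1 1 (swE ε : Perm (W1 F)) := by
  cases ε
  exacts [sim6_id, sim6_sw6]

omit [CharZero F] in
theorem swE_slA (ε : Bool) (δ : M3 F) (v : W1 F) : swE ε (slA δ v) = slA δ (swE ε v) := by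
  cases ε <;> rfl

theorem TD.tnf_gen (h : TD a b c l) (hm : m ≠ 0) (γ : Gl F) (ε κ : Bool) :
    TNF γ ε κ a b c l m (swE ε * h.act hm * stW γ κ : Perm (W1 F)) := by
  refine ⟨h.da, h.db, h.dc, h.ne, hm, fun X Y Z => ?_, fun X Y Z => ?_, h.r0, h.r1, h.r2⟩
  · have h1 := stW_inj γ κ false X Y Z
    have h2 := (h.tnf hm).fst (tp κ γ X Z) (tp κ γ Y Y) (tp κ γ Z X)
    simp only [inj, Bool.false_eq_true, if_false] at h1
    rw [Perm.mul_apply, Perm.mul_apply, h1, h2, swE_inj]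
    simp [tp]
  · have h1 := stW_inj γ κ true X Y Z
    have h2 := (h.tnf hm).snd (tp κ γ X Z) (tp κ γ Y Y) (tp κ γ Z X)
    simp only [inj, if_true] at h1
    rw [Perm.mul_apply, Perm.mul_apply, h1, h2, swE_inj]
    simp [tp]

/-- Every normal form occurs. -/
theorem TD.exists_tnf (h : TD a b c l) (hm : m ≠ 0) (γ : Gl F) (ε κ : Bool) :
    ∃ φ : Perm (W1 F), TNF γ ε κ a b c l m φ ∧
      Sim6 γ ε (if ε then m ^ 3 / (l 0 * l 1 * l 2) else l 0 * l 1 * l 2)
        (if ε then l 0 * l 1 * l 2 else m ^ 3 / (l 0 * l 1 * l 2)) m φ := by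
  refine ⟨swE ε * h.act hm * stW γ κ, h.tnf_gen hm γ ε κ, ?_⟩
  refine (((sim6_one.2 (sim6_swE ε)).comp (sim6_one.2 (h.sim hm))).comp (sim6_stW γ κ)).cast
    (by simp) (by simp) ?_ ?_ (by simp) <;> cases ε <;> simp

variable {γ : Gl F} {ε κ : Bool} {φ φ' : W1 F → W1 F}

theorem TNF.ext (h : TNF γ ε κ a b c l m φ) (h' : TNF γ ε κ a b c l m φ') (hs : Semi γ φ)
    (hs' : Semi γ φ') : φ = φ' := by
  funext ⟨x, y⟩
  obtain ⟨X, Y, Z, rfl⟩ := exists_mkT x
  obtain ⟨X', Y', Z', rfl⟩ := exists_mkT y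
  rw [show ((mkT X Y Z, mkT X' Y' Z') : W1 F) = (mkT X Y Z, 0) + (0, mkT X' Y' Z') by simp,
    hs.add, hs'.add, h.fst, h.snd, h'.fst, h'.snd]

theorem TNF.sim (h : TNF γ ε κ a b c l m φ) (hs : Semi γ φ) :
    Sim6 γ ε (if ε then m ^ 3 / (l 0 * l 1 * l 2) else l 0 * l 1 * l 2)
      (if ε then l 0 * l 1 * l 2 else m ^ 3 / (l 0 * l 1 * l 2)) m φ := by
  obtain ⟨φ', h1, h2⟩ := h.td.exists_tnf h.ne' γ ε κ
  rwa [h.ext h1 hs h2.semi]

/-- The first matrix can be multiplied by a scalar. -/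
theorem TNF.smul_a (h : TNF γ ε κ a b c l m φ) {s : F} (hs : s ≠ 0) :
    TNF γ ε κ (s • a) b c ![l 0 / s, l 1, l 2 * s] m φ := by
  have h0 := h.ne 0
  have h1 := h.ne 1
  have h2 := h.ne 2
  refine ⟨by simp [hs, h.da], h.db, h.dc, fun i => ?_, h.ne', fun X Y Z => ?_, fun X Y Z => ?_,
    ?_, ?_, ?_⟩
  · fin_cases i <;> simp [*]
  · rw [h.fst, m3_inv_smul hs h.da]
    simp [smul_smul, hs]
  · rw [h.snd, m3_inv_smul hs h.da]
    simp only [cons_val, Matrix.smul_mul, Matrix.mul_smul, smul_smul]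
    congr 3 <;> field_simp
  · simp only [cons_val, Matrix.det_smul, Fintype.card_fin]
    field_simp
    linear_combination h.r0
  · simp only [cons_val]
    field_simp
    linear_combination h.r1
  · simp only [cons_val, Matrix.det_smul, Fintype.card_fin]
    field_simp
    linear_combination h.r2

/-- The action on the Lie algebra of the first factor. -/
theorem TNF.slA (h : TNF γ ε κ a b c l m φ) (hs : Semi γ φ) (δ : M3 F) (v : W1 F) :
    φ (slA δ v) = slA (a * (if κ then -(δ.map γ)ᵀ else δ.map γ) * a⁻¹) (φ v) := by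
  obtain ⟨x, y⟩ := v
  obtain ⟨X, Y, Z, rfl⟩ := exists_mkT x
  obtain ⟨X', Y', Z', rfl⟩ := exists_mkT y
  have e : ∀ x y : J1 F, φ (x, y) = φ (x, 0) + φ (0, y) := fun x y => by rw [← hs.add]; simp
  rw [slA_eq, e, e (mkT X Y Z), ← slL_apply, map_add, slL_apply, slL_apply, sl1_mkT, sl1_mkT,
    h.fst, h.fst, h.snd, h.snd, slA_inj, slA_inj, sl1_mkT, sl1_mkT]
  cases κ <;>
    simp [tp, Matrix.map_mul, Matrix.map_neg, Matrix.mul_assoc, m3_inv_mul' h.da]

end Vale.Agent.P011N.Cl
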