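import Vale.Agent.P011N.Cl.TC.GR
import Vale.Agent.P011N.Cl.JT.Un

/-!
The nilpotent elements which move the space of degree `2` to the graph of a matrix.
-/

namespace Vale.Agent.P011N.Cl

open Vale.Agent.P011.MPQ Vale.Agent.P011.D4 Vale.Agent.P011.D4.Oct Vale.Agent.P011.E6 Equiv Matrix
open Vale.Agent.P011.E6O Vale.Agent.P011.E6.Alb

variable {F : Type} [Field F]

/-- The second column of the third component. -/
def pR (z : Fin 3 → F) : J1 F := mkT 0 0 (vecMulVec z (Pi.single 1 1))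

/-- The second row of the first component. -/
def pS (β : Fin 3 → F) : J1 F := mkT (vecMulVec (Pi.single 1 1) β) 0 0

/-- The antisymmetric part of a matrix, as a vector. -/
def axv (N : M3 F) : Fin 3 → F := ![N 2 1 - N 1 2, N 0 2 - N 2 0, N 1 0 - N 0 1]

/-- The matrix of the cross product with a vector. -/
def crm (w : Fin 3 → F) : M3 F := !![0, -w 2, w 1; w 2, 0, -w 0; -w 1, w 0, 0]

theorem m3_eq_sum (M : M3 F) : M = ∑ j, vecMulVec (fun i => M i j) (Pi.single j 1) := by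
  ext i j
  fin_cases j <;> simp [Fin.sum_univ_three, vecMulVec_apply]

theorem m3_row_add (X Y : M3 F) (i : Fin 3) : (X + Y) i = X i + Y i := rfl

theorem m3_row_smul (t : F) (X : M3 F) (i : Fin 3) : (t • X) i = t • X i := rfl

theorem m3_row_zero (i : Fin 3) : (0 : M3 F) i = 0 := rfl

variable [CharZero F]

theorem pR_add (x y : Fin 3 → F) : pR (x + y) = pR x + pR y := by
  simp [pR, mkT_add, add_vecMulVec]

theorem pR_smul (t : F) (x : Fin 3 → F) : pR (t • x) = t • pR x := by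
  simp [pR, mkT_smul, smul_vecMulVec]

theorem pR_neg (x : Fin 3 → F) : pR (-x) = -pR x := by simp [pR, mkT_neg, neg_vecMulVec]

@[simp] theorem pR_zero : pR (0 : Fin 3 → F) = 0 := by simp [pR]

theorem pS_add (x y : Fin 3 → F) : pS (x + y) = pS x + pS y := by
  simp [pS, mkT_add, vecMulVec_add]

theorem pS_smul (t : F) (x : Fin 3 → F) : pS (t • x) = t • pS x := by
  simp [pS, mkT_smul, vecMulVec_smul]

theorem pS_neg (x : Fin 3 → F) : pS (-x) = -pS x := by simp [pS, mkT_neg, vecMulVec_neg]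

@[simp] theorem pS_zero : pS (0 : Fin 3 → F) = 0 := by simp [pS]

theorem pPR_inj {β β' z z' : Fin 3 → F} (h : pP β + pR z = pP β' + pR z') : β = β' ∧ z = z' := by
  simp only [pP, pR, mkT_add, mkT_inj, add_zero, zero_add] at h
  exact ⟨funext fun i => by simpa [vecMulVec_apply] using congrFun (congrFun h.1 0) i,
    funext fun i => by simpa [vecMulVec_apply] using congrFun (congrFun h.2.2 i) 1⟩

theorem tf_pR (z : Fin 3 → F) (x : J1 F) : tf (pR z) x = z ⬝ᵥ tX x 1 := by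
  simp [pR, tf_T, Matrix.trace_fin_three, Matrix.mul_apply, vecMulVec_apply, dotProduct,
    Fin.sum_univ_three]

theorem tf_pS (β : Fin 3 → F) (x : J1 F) : tf (pS β) x = β ⬝ᵥ fun i => tZ x i 1 := by
  simp [pS, tf_T, Matrix.trace_fin_three, Matrix.mul_apply, vecMulVec_apply, dotProduct]

theorem tp1_pR (z : Fin 3 → F) : tp1 (pR z) = pS z := by simp [pR, pS, tp1_mkT]

theorem tp1_pS (z : Fin 3 → F) : tp1 (pS z) = pR z := by simp [pR, pS, tp1_mkT]

/-- The action on one summand. -/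
def n1 : M3 F →ₗ[F] Module.End F (J1 F) :=
  LinearMap.mk₂ F (fun M x => mkT (vecMulVec (Pi.single 2 1) (axv (tY x * M)))
      (Mᵀ * crm fun i => tZ x i 2)
      (vecMulVec (M *ᵥ tX x 0) (Pi.single 1 1) - vecMulVec (M *ᵥ tX x 1) (Pi.single 0 1)))
    (fun M M' x => by
      rw [mkT_add, mkT_inj]
      refine ⟨?_, by simp [add_mul], by simp [add_mulVec, add_vecMulVec]; abel⟩
      ext i j
      fin_cases j <;> simp [axv, vecMulVec_apply, mul_add] <;> ring)
    (fun t M x => by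
      rw [mkT_smul, mkT_inj]
      refine ⟨?_, by simp, by simp [smul_mulVec, smul_vecMulVec, smul_sub]⟩
      ext i j
      fin_cases j <;> simp [axv, vecMulVec_apply] <;> ring)
    (fun M x y => by
      rw [mkT_add, mkT_inj]
      refine ⟨?_, ?_, by simp [m3_row_add, mulVec_add, add_vecMulVec]; abel⟩
      · ext i j
        fin_cases j <;> simp [axv, vecMulVec_apply, add_mul] <;> ring
      · rw [← mul_add]
        congr 1
        ext i j
        fin_cases i <;> fin_cases j <;> simp [crm, add_comm])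
    (fun t M x => by
      rw [mkT_smul, mkT_inj]
      refine ⟨?_, ?_, by simp [m3_row_smul, mulVec_smul, smul_vecMulVec, smul_sub]⟩
      · ext i j
        fin_cases j <;> simp [axv, vecMulVec_apply] <;> ring
      · rw [← Matrix.mul_smul]
        congr 1
        ext i j
        fin_cases i <;> fin_cases j <;> simp [crm])

theorem n1_apply (M : M3 F) (x : J1 F) : n1 M x =
    mkT (vecMulVec (Pi.single 2 1) (axv (tY x * M))) (Mᵀ * crm fun i => tZ x i 2)
      (vecMulVec (M *ᵥ tX x 0) (Pi.single 1 1) - vecMulVec (M *ᵥ tX x 1) (Pi.single 0 1)) := rfl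

theorem n1_mkT (M X Y Z : M3 F) : n1 M (mkT X Y Z) =
    mkT (vecMulVec (Pi.single 2 1) (axv (Y * M))) (Mᵀ * crm fun i => Z i 2)
      (vecMulVec (M *ᵥ X 0) (Pi.single 1 1) - vecMulVec (M *ᵥ X 1) (Pi.single 0 1)) := by
  simp only [n1_apply, tX_mkT, tY_mkT, tZ_mkT]

omit [CharZero F] in
@[simp] theorem axv_zero : axv (0 : M3 F) = 0 := by simp [axv]

omit [CharZero F] in
@[simp] theorem crm_zero : crm (fun _ => (0 : F)) = 0 := by
  ext i j
  fin_cases i <;> fin_cases j <;> simp [crm]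

theorem n1_pP (M : M3 F) (β : Fin 3 → F) : n1 M (pP β) = pR (M *ᵥ β) := by
  have h0 : vecMulVec (Pi.single (0 : Fin 3) (1 : F)) β 0 = β := by ext; simp [vecMulVec_apply]
  have h1 : vecMulVec (Pi.single (0 : Fin 3) (1 : F)) β 1 = 0 := by ext; simp [vecMulVec_apply]
  simp [pP, pR, n1_mkT, h0, h1]

theorem n1_pS (M : M3 F) (β : Fin 3 → F) : n1 M (pS β) = -pQ (M *ᵥ β) := by
  have h0 : vecMulVec (Pi.single (1 : Fin 3) (1 : F)) β 0 = 0 := by ext; simp [vecMulVec_apply]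
  have h1 : vecMulVec (Pi.single (1 : Fin 3) (1 : F)) β 1 = β := by ext; simp [vecMulVec_apply]
  simp [pS, pQ, n1_mkT, h0, h1, mkT_neg]

theorem n1_pR (M : M3 F) (z : Fin 3 → F) : n1 M (pR z) = 0 := by
  simp [pR, n1_mkT, vecMulVec_apply, m3_row_zero]

theorem n1_pQ (M : M3 F) (z : Fin 3 → F) : n1 M (pQ z) = 0 := by
  simp [pQ, n1_mkT, vecMulVec_apply, m3_row_zero]

theorem n1_cube (M : M3 F) (x : J1 F) : n1 M (n1 M (n1 M x)) = 0 := by
  have h0 : ∀ β : Fin 3 → F, vecMulVec (Pi.single (2 : Fin 3) (1 : F)) β 0 = 0 := fun β => by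
    ext; simp [vecMulVec_apply]
  have h1 : ∀ β : Fin 3 → F, vecMulVec (Pi.single (2 : Fin 3) (1 : F)) β 1 = 0 := fun β => by
    ext; simp [vecMulVec_apply]
  rw [n1_apply M x, n1_mkT, n1_mkT]
  simp [h0, h1, vecMulVec_apply]

theorem n1_rank (z ζ : Fin 3 → F) : n1 (vecMulVec z ζ) = vop (pR z) (pQ ζ) :=
  LinearMap.ext fun x => by
    obtain ⟨X, Y, Z, rfl⟩ := exists_mkT x
    simp only [vop_apply, tf_pQ, n1_mkT]
    simp only [pR, pQ, cross_mkT, mkT_smul, mkT_sub, mkT_inj, mx_zero_left, tX_mkT]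
    refine ⟨?_, ?_, ?_⟩
    · simp only [mx_eq]
      ext i j
      fin_cases i <;> fin_cases j <;>
        simp [vecMulVec_apply, axv, Matrix.mul_apply, Fin.sum_univ_three] <;> ring
    · simp only [mx_eq]
      ext i j
      fin_cases j <;> simp [vecMulVec_apply, crm, Matrix.mul_apply, Fin.sum_univ_three] <;> ring
    · ext i j
      fin_cases j <;> simp [vecMulVec_apply, Matrix.mul_apply, Fin.sum_univ_three, mulVec,
        dotProduct] <;> ring

theorem n1_rank' (z ζ : Fin 3 → F) : n1 (vecMulVec ζ z) = -vop (pQ ζ) (pR z) :=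
  LinearMap.ext fun x => by
    obtain ⟨X, Y, Z, rfl⟩ := exists_mkT x
    simp only [vop_apply, tf_pR, n1_mkT, LinearMap.neg_apply, neg_sub]
    simp only [pR, pQ, cross_mkT, mkT_smul, mkT_sub, mkT_inj, mx_zero_left, tX_mkT]
    refine ⟨?_, ?_, ?_⟩
    · simp only [mx_eq]
      ext i j
      fin_cases i <;> fin_cases j <;>
        simp [vecMulVec_apply, axv, Matrix.mul_apply, Fin.sum_univ_three] <;> ring
    · simp only [mx_eq]
      ext i j
      fin_cases j <;> simp [vecMulVec_apply, crm, Matrix.mul_apply, Fin.sum_univ_three] <;> ring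
    · ext i j
      fin_cases j <;> simp [vecMulVec_apply, Matrix.mul_apply, Fin.sum_univ_three, mulVec,
        dotProduct] <;> ring

/-- The nilpotent element of a matrix. -/
def nM : M3 F →ₗ[F] Module.End F (W1 F) where
  toFun M := (n1 M).prodMap (n1 Mᵀ)
  map_add' M M' := LinearMap.ext fun v => by simp
  map_smul' t M := LinearMap.ext fun v => by simp

theorem nM_apply (M : M3 F) (v : W1 F) : nM M v = (n1 M v.1, n1 Mᵀ v.2) := rfl

theorem nM_rank (z ζ : Fin 3 → F) : nM (vecMulVec z ζ) = VopL (pR z) (pQ ζ) :=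
  LinearMap.ext fun v => by
    rw [nM_apply, VopL_apply', transpose_vecMulVec, n1_rank, n1_rank', LinearMap.neg_apply]

theorem nM_mem (M : M3 F) : nM M ∈ s6 (1 : Fˣ) 1 1 := by
  rw [m3_eq_sum M, map_sum]
  refine sum_mem fun j _ => ?_
  rw [nM_rank]
  exact VopL_mem (by simp [tf_pR, pQ, m3_row_zero])

theorem nM_cube (M : M3 F) : nM M ^ 3 = 0 := LinearMap.ext fun v => by
  simp [pow_succ, nM_apply, n1_cube]

theorem nM_inj {M M' : M3 F} (h : ∀ β, nM M (pP β, 0) = nM M' (pP β, 0)) : M = M' := by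
  refine Matrix.ext_iff_mulVec.2 fun β => ?_
  have h1 := congrArg Prod.fst (h β)
  rw [nM_apply, nM_apply, n1_pP, n1_pP] at h1
  exact (pPR_inj (β := 0) (β' := 0) (by simpa using h1)).2

theorem sw6_nM (M : M3 F) (v : W1 F) : sw6 (nM M v) = nM Mᵀ (sw6 v) := rfl

theorem n1_sl1 {δ : M3 F} (h : δ.trace = 0) (h1 : ∀ i, δ i 2 = 0) (h2 : ∀ i, δ 2 i = 0) (M : M3 F)
    (x : J1 F) : n1 M (sl1 δ x) = sl1 δ (n1 M x) := by
  have h3 : δ 1 1 = -δ 0 0 := by
    rw [Matrix.trace_fin_three, h1] at h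
    linear_combination h
  obtain ⟨X, Y, Z, rfl⟩ := exists_mkT x
  rw [sl1_mkT, n1_mkT, n1_mkT, sl1_mkT, mkT_inj]
  refine ⟨?_, ?_, ?_⟩
  · ext i j
    simp [vecMulVec_apply, Matrix.mul_apply, Fin.sum_univ_three, h1]
  · simp [Matrix.mul_apply, h1]
  · ext i j
    fin_cases j <;> simp [vecMulVec_apply, Matrix.mul_apply, Fin.sum_univ_three, mulVec,
      dotProduct, h1, h2, h3] <;> ring

theorem nM_slA {δ : M3 F} (h : δ.trace = 0) (h1 : ∀ i, δ i 2 = 0) (h2 : ∀ i, δ 2 i = 0) (M : M3 F)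
    (v : W1 F) : nM M (slA δ v) = slA δ (nM M v) := by
  simp only [nM_apply, slA_eq, n1_sl1 h h1 h2]

/-- The unipotent element of a matrix. -/
def ex (M : M3 F) : Perm (W1 F) := (exp3 (nM M) (nM_cube M)).toEquiv

theorem ex_apply (M : M3 F) (v : W1 F) : ex M v = v + nM M v + (2 : F)⁻¹ • nM M (nM M v) := rfl

theorem ex_mem (M : M3 F) : ex M ∈ S6 (1 : Fˣ) 1 1 := exp3_mem (nM_mem M) _

theorem ex_inv (M : M3 F) : (ex M)⁻¹ = ex (-M) := Equiv.ext fun v => by
  change v - nM M v + (2 : F)⁻¹ • nM M (nM M v) = _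
  simp [ex_apply, sub_eq_add_neg]

theorem ex_zero : ex (0 : M3 F) = 1 := Equiv.ext fun v => by simp [ex_apply]

/-- The matrix, or its transpose. -/
def tE (ε : Bool) (M : M3 F) : M3 F := if ε then Mᵀ else M

theorem nM_inj' (M : M3 F) (ε : Bool) (x : J1 F) : nM M (inj ε x) = inj ε (n1 (tE ε M) x) := by
  cases ε <;> simp [nM_apply, inj, tE]

omit [CharZero F] in
theorem inj_add' (ε : Bool) (x y : J1 F) : inj ε (x + y) = inj ε x + inj ε y := by
  cases ε <;> simp [inj]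

omit [CharZero F] in
theorem inj_neg' (ε : Bool) (x : J1 F) : inj ε (-x) = -inj ε x := by cases ε <;> simp [inj]

omit [CharZero F] in
theorem inj_smul' (ε : Bool) (t : F) (x : J1 F) : inj ε (t • x) = t • inj ε x := by
  cases ε <;> simp [inj]

omit [CharZero F] in
theorem inj_zero' (ε : Bool) : inj ε (0 : J1 F) = 0 := by cases ε <;> simp [inj]

theorem ex_pP (M : M3 F) (ε : Bool) (β : Fin 3 → F) :
    ex M (inj ε (pP β)) = inj ε (pP β + pR (tE ε M *ᵥ β)) := by
  simp [ex_apply, nM_inj', n1_pP, n1_pR, inj_add', inj_zero']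

theorem ex_pS (M : M3 F) (ε : Bool) (β : Fin 3 → F) :
    ex M (inj ε (pS β)) = inj ε (pS β + pQ (-(tE ε M *ᵥ β))) := by
  simp [ex_apply, nM_inj', n1_pS, n1_pQ, inj_add', inj_zero', pQ_neg]

theorem ex_pR (M : M3 F) (ε : Bool) (z : Fin 3 → F) : ex M (inj ε (pR z)) = inj ε (pR z) := by
  simp [ex_apply, nM_inj', n1_pR, inj_zero']

theorem ex_pQ (M : M3 F) (ε : Bool) (z : Fin 3 → F) : ex M (inj ε (pQ z)) = inj ε (pQ z) := by
  simp [ex_apply, nM_inj', n1_pQ, inj_zero']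

theorem ex_pP0 (M : M3 F) (β : Fin 3 → F) : ex M (pP β, 0) = (pP β + pR (M *ᵥ β), 0) :=
  ex_pP M false β

theorem ex_slA {δ : M3 F} (h : δ.trace = 0) (h1 : ∀ i, δ i 2 = 0) (h2 : ∀ i, δ 2 i = 0) (M : M3 F)
    (v : W1 F) : ex M (slA δ v) = slA δ (ex M v) := by
  rw [ex_apply, ex_apply, nM_slA h h1 h2, nM_slA h h1 h2, ← slL_apply, ← slL_apply, ← slL_apply,
    ← slL_apply, map_add, map_add, map_smul]

/-! The similitudes which act trivially on the first factor. -/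

section tnf

variable {γ : Gl F} {ε : Bool} {b c : M3 F} {l : Fin 3 → F} {m : F}

theorem map_vecMulVec' (γ : Gl F) (u v : Fin 3 → F) :
    (vecMulVec u v).map γ = vecMulVec (fun i => γ (u i)) fun i => γ (v i) := by
  ext i j
  simp [vecMulVec_apply]

theorem map_single' (γ : Gl F) (j : Fin 3) :
    (fun i => γ ((Pi.single j 1 : Fin 3 → F) i)) = Pi.single j 1 := by
  ext i
  by_cases h : i = j <;> simp [h]

variable {φ : W1 F → W1 F}

theorem TNF.pP_fst (h : TNF γ ε false 1 b c l m φ) (β : Fin 3 → F) :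
    φ (pP β, 0) = inj ε (pP ((l 0 • b⁻¹ᵀ) *ᵥ fun i => γ (β i))) := by
  rw [pP, h.fst]
  simp [tp, pP, map_vecMulVec', map_single', vecMulVec_mul, smul_mulVec, vecMulVec_smul,
    mulVec_transpose]

theorem TNF.pS_fst (h : TNF γ ε false 1 b c l m φ) (β : Fin 3 → F) :
    φ (pS β, 0) = inj ε (pS ((l 0 • b⁻¹ᵀ) *ᵥ fun i => γ (β i))) := by
  rw [pS, h.fst]
  simp [tp, pS, map_vecMulVec', map_single', vecMulVec_mul, smul_mulVec, vecMulVec_smul,
    mulVec_transpose]

theorem TNF.pR_fst (h : TNF γ ε false 1 b c l m φ) (z : Fin 3 → F) :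
    φ (pR z, 0) = inj ε (pR ((l 2 • c) *ᵥ fun i => γ (z i))) := by
  rw [pR, h.fst]
  simp [tp, pR, map_vecMulVec', map_single', mul_vecMulVec, smul_mulVec, smul_vecMulVec]

theorem TNF.pQ_fst (h : TNF γ ε false 1 b c l m φ) (z : Fin 3 → F) :
    φ (pQ z, 0) = inj ε (pQ ((l 2 • c) *ᵥ fun i => γ (z i))) := by
  rw [pQ, h.fst]
  simp [tp, pQ, map_vecMulVec', map_single', mul_vecMulVec, smul_mulVec, smul_vecMulVec]

theorem TNF.pP_snd (h : TNF γ ε false 1 b c l m φ) (β : Fin 3 → F) :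
    φ (0, pP β) = inj (!ε) (pP (((m / l 2) • c⁻¹ᵀ) *ᵥ fun i => γ (β i))) := by
  rw [pP, h.snd]
  simp [tp, pP, map_vecMulVec', map_single', vecMulVec_mul, smul_mulVec, vecMulVec_smul,
    mulVec_transpose]

theorem TNF.pS_snd (h : TNF γ ε false 1 b c l m φ) (β : Fin 3 → F) :
    φ (0, pS β) = inj (!ε) (pS (((m / l 2) • c⁻¹ᵀ) *ᵥ fun i => γ (β i))) := by
  rw [pS, h.snd]
  simp [tp, pS, map_vecMulVec', map_single', vecMulVec_mul, smul_mulVec, vecMulVec_smul,
    mulVec_transpose]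

theorem TNF.pR_snd (h : TNF γ ε false 1 b c l m φ) (z : Fin 3 → F) :
    φ (0, pR z) = inj (!ε) (pR (((m / l 0) • b) *ᵥ fun i => γ (z i))) := by
  rw [pR, h.snd]
  simp [tp, pR, map_vecMulVec', map_single', mul_vecMulVec, smul_mulVec, smul_vecMulVec]

theorem TNF.pQ_snd (h : TNF γ ε false 1 b c l m φ) (z : Fin 3 → F) :
    φ (0, pQ z) = inj (!ε) (pQ (((m / l 0) • b) *ᵥ fun i => γ (z i))) := by
  rw [pQ, h.snd]
  simp [tp, pQ, map_vecMulVec', map_single', mul_vecMulVec, smul_mulVec, smul_vecMulVec]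

/-- The action on the matrices. -/
noncomputable def cM (γ : F → F) (ε : Bool) (b c : M3 F) (l : Fin 3 → F) (M : M3 F) : M3 F :=
  tE ε ((l 2 / l 0) • (c * M.map γ * bᵀ))

theorem TNF.swE (h : TNF γ ε false 1 b c l m φ) : TNF γ false false 1 b c l m (swE ε ∘ φ) :=
  ⟨h.da, h.db, h.dc, h.ne, h.ne', fun X Y Z => by simp [h.fst, swE_inj],
    fun X Y Z => by simp [h.snd, swE_inj], h.r0, h.r1, h.r2⟩

theorem TNF.nM_false {φ : Perm (W1 F)} (h : TNF γ false false 1 b c l m φ) (hs : Semi γ φ)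
    (M : M3 F) (v : W1 F) : φ (nM M v) = nM (cM γ false b c l M) (φ v) := by
  have k0 := h.sim hs
  have k1 : ∀ z ζ, φ (nM (vecMulVec z ζ) v) = nM (cM γ false b c l (vecMulVec z ζ)) (φ v) := by
    intro z ζ
    have k2 := k0.Vop_false (pR z) (pQ ζ) v
    rw [show fs6 φ false (pR z) = _ from congrArg Prod.fst (h.pR_fst z),
      show sn6 φ false (pQ ζ) = _ from congrArg Prod.snd (h.pQ_snd ζ)] at k2
    refine smul_right_injective _ h.ne' ?_
    simp only
    rw [nM_rank, VopL_apply, ← k2, ← LinearMap.smul_apply, ← map_smul]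
    simp only [inj, Bool.false_eq_true, if_false, Bool.not_false, if_true]
    rw [← VopL_apply, ← nM_rank]
    congr 2
    rw [cM, tE, if_neg (by simp), map_vecMulVec', mul_vecMulVec, vecMulVec_mul, vecMul_transpose,
      smul_mulVec, smul_mulVec, smul_vecMulVec, vecMulVec_smul, smul_smul, smul_smul]
    congr 1
    ring
  have k2 : ∀ M M' : M3 F, cM γ false b c l (M + M') = cM γ false b c l M + cM γ false b c l M' :=
    fun M M' => by simp [cM, tE, Matrix.map_add, mul_add, add_mul]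
  rw [m3_eq_sum M]
  simp only [Fin.sum_univ_three, map_add, LinearMap.add_apply, hs.add, k1, k2]

theorem swE_nM (ε : Bool) (M : M3 F) (v : W1 F) : swE ε (nM M v) = nM (tE ε M) (swE ε v) := by
  cases ε <;> rfl

/-- The elements `nM M` are permuted. -/
theorem TNF.nM {φ : Perm (W1 F)} (h : TNF γ ε false 1 b c l m φ) (hs : Semi γ φ)
    (M : M3 F) (v : W1 F) : φ (nM M v) = nM (cM γ ε b c l M) (φ v) := by
  have k1 := TNF.nM_false (φ := Cl.swE ε * φ) h.swE 
    (Semi.lin_comp (g := Cl.swE ε) (sim6_swE ε).semi hs) M v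
  have k2 := congrArg (Cl.swE ε) k1
  rwa [Perm.mul_apply, Perm.mul_apply, swE_swE, swE_nM, swE_swE] at k2

theorem Semi.ex {φ : W1 F → W1 F} (hs : Semi γ φ) {M M' : M3 F}
    (h : ∀ v, φ (nM M v) = nM M' (φ v)) (v : W1 F) : φ (ex M v) = ex M' (φ v) := by
  simp only [ex_apply, hs.add, hs.smul, h, map_inv₀, map_ofNat]

theorem TNF.ex {φ : Perm (W1 F)} (h : TNF γ ε false 1 b c l m φ) (hs : Semi γ φ)
    (M : M3 F) : φ * ex M = ex (cM γ ε b c l M) * φ := Equiv.ext (hs.ex (h.nM hs M))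

end tnf

section fixed

variable {F : Type} [Field F] [NumberField F] {Γ : Subgroup (Gl F)} {Φ : Subgroup (Perm (W1 F))}

/-- The matrices whose nilpotent elements commute with the group. -/
def fxM (Φ : Subgroup (Perm (W1 F))) (hΦ : Over Γ Φ) : AddSubmonoid (M3 F) where
  carrier := {M | ∀ φ ∈ Φ, ∀ v, φ (nM M v) = nM M (φ v)}
  zero_mem' φ hφ v := by
    obtain ⟨γ, -, hs⟩ := hΦ.semi φ hφ
    simp [hs.zero]
  add_mem' := fun {M M'} h h' φ hφ v => by
    obtain ⟨γ, -, hs⟩ := hΦ.semi φ hφ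
    simp only [map_add, LinearMap.add_apply, hs.add, h φ hφ, h' φ hφ]

theorem mem_fxM {hΦ : Over Γ Φ} {M : M3 F} :
    M ∈ fxM Φ hΦ ↔ ∀ φ ∈ Φ, ∀ v, φ (nM M v) = nM M (φ v) := Iff.rfl

theorem fxM_smul {hΦ : Over Γ Φ} {M : M3 F} (h : M ∈ fxM Φ hΦ) {t : F} (ht : Fx Γ t) :
    t • M ∈ fxM Φ hΦ := fun φ hφ v => by
  obtain ⟨γ, h1, hs⟩ := hΦ.semi φ hφ
  simp only [map_smul, LinearMap.smul_apply, hs.smul, h φ hφ, ht γ h1]

theorem fxM_ex {hΦ : Over Γ Φ} {M : M3 F} (h : M ∈ fxM Φ hΦ) : ex M ∈ Pts (S6 1 1 1) Φ :=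
  exp3_mem_Pts hΦ (nM_mem M) _ h

/-- The fixed matrices span the space of all matrices. -/
theorem span_fxM (h : Dat6 Γ Φ)
    (hA : ∀ φ ∈ Φ, ∃ (γ : Gl F) (ε : Bool) (b c : M3 F) (l : Fin 3 → F) (m : F),
      Semi γ φ ∧ TNF γ ε false 1 b c l m φ) :
    Submodule.span F (fxM Φ h.ov : Set (M3 F)) = ⊤ := by
  have k1 := conj_span h.ov (LinearMap.range nM)
    (by
      rintro φ hφ _ ⟨M, rfl⟩
      obtain ⟨γ, ε, b, c, l, m, h1, h2⟩ := hA φ hφ
      exact ⟨_, ⟨_, rfl⟩, h2.nM h1 M⟩)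
    (by
      rintro φ hφ hs _ ⟨M, rfl⟩
      exact comm_Z6_s6 (h.lin φ hφ hs) (nM_mem M))
  have k2 : Function.Injective (nM : M3 F →ₗ[F] _) := fun M M' e => nM_inj fun β => by rw [e]
  refine eq_top_iff.2 fun M _ => ?_
  have k3 : nM M ∈ (Submodule.span F (fxM Φ h.ov : Set (M3 F))).map nM := by
    rw [Submodule.map_span]
    refine Submodule.span_mono ?_ (k1 ⟨M, rfl⟩)
    rintro _ ⟨⟨M', rfl⟩, h1⟩
    exact ⟨M', h1, rfl⟩
  obtain ⟨M', h1, h2⟩ := k3
  rwa [← k2 h2]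

end fixed

end Vale.Agent.P011N.Cl
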