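import Vale.Agent.P011N.Cl.TC.Act

/-!
The normal form of the similitudes which respect the grading.
-/

namespace Vale.Agent.P011N.Cl

open Vale.Agent.P011.MPQ Vale.Agent.P011.D4 Vale.Agent.P011.D4.Oct Vale.Agent.P011.E6 Equiv Matrix
open Vale.Agent.P011.E6O Vale.Agent.P011.E6.Alb

variable {F : Type} [Field F]

/-- The matrix of the grading operator. -/
abbrev hh (F : Type) [Field F] : M3 F := diagonal ![2, -1, -1]

theorem hh_sq : hh F * hh F = hh F + (2 : F) • 1 := by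
  ext i j
  fin_cases i <;> fin_cases j <;> simp [Matrix.mul_apply, Fin.sum_univ_three] <;> norm_num

theorem hh_transpose : (hh F)ᵀ = hh F := Matrix.diagonal_transpose _

theorem skolem_m3 (T : M3 F →ₗ[F] M3 F) (h1 : T 1 = 1) (hm : ∀ X Y, T (X * Y) = T X * T Y)
    (hb : Function.Bijective T) : ∃ g : M3 F, g.det ≠ 0 ∧ ∀ X, T X = g * X * g⁻¹ := by
  obtain ⟨S, hS⟩ := (Matrix.toLinAlgEquiv'.symm.trans ((AlgEquiv.ofBijective
    (AlgHom.ofLinearMap T h1 hm) hb).trans Matrix.toLinAlgEquiv')).eq_linearEquivConjAlgEquiv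
  have k1 : LinearMap.toMatrix' S.symm.toLinearMap * LinearMap.toMatrix' S.toLinearMap = 1 := by
    rw [← LinearMap.toMatrix'_comp, LinearEquiv.symm_comp, LinearMap.toMatrix'_id]
  refine ⟨LinearMap.toMatrix' S.toLinearMap, (Matrix.isUnit_det_of_left_inverse k1).ne_zero,
    fun X => ?_⟩
  have k2 := congrArg LinearMap.toMatrix' (DFunLike.congr_fun hS (Matrix.toLin' X))
  rw [LinearEquiv.conjAlgEquiv_apply, LinearMap.toMatrix'_comp, LinearMap.toMatrix'_comp,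
    LinearMap.toMatrix'_toLin'] at k2
  rw [Matrix.inv_eq_left_inv k1, Matrix.mul_assoc, ← k2]
  change _ = LinearMap.toMatrix' (Matrix.toLin' (T (LinearMap.toMatrix' (Matrix.toLin' X))))
  rw [LinearMap.toMatrix'_toLin', LinearMap.toMatrix'_toLin']

/-- The triples of linear maps which preserve the trace of the product. -/
theorem triple_m3 {P Q R : M3 F →ₗ[F] M3 F} {ν : F} (hP : Function.Bijective P)
    (hR : Function.Surjective R) (hp : (P 1).det ≠ 0) (hq : (Q 1).det ≠ 0)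
    (h : ∀ X Y Z, (P X * Q Y * R Z).trace = ν * (X * Y * Z).trace) :
    ∃ a b c : M3 F, a.det ≠ 0 ∧ b.det ≠ 0 ∧ c.det ≠ 0 ∧ (∀ X, P X = a * X * b⁻¹) ∧
      (∀ Y, Q Y = b * Y * c⁻¹) ∧ ∀ Z, R Z = ν • (c * Z * a⁻¹) := by
  have k1 : ∀ X Y, P X * Q Y = P (X * Y) * Q 1 := fun X Y =>
    Matrix.ext_iff_trace_mul_right.2 fun W => by
      obtain ⟨Z, rfl⟩ := hR W
      rw [h, h, Matrix.mul_one]
  have k2 : ∀ Y, Q Y = (P 1)⁻¹ * P Y * Q 1 := fun Y => by
    rw [Matrix.mul_assoc, ← one_mul Y, ← k1, m3_inv_mul' hp, one_mul]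
  obtain ⟨g, hg, k3⟩ := skolem_m3 (LinearMap.mulLeft F (P 1)⁻¹ ∘ₗ P) (m3_inv_mul hp)
    (fun X Y => by
      have h1 := k1 X Y
      rw [k2 Y, ← Matrix.mul_assoc] at h1
      have h2 := congrArg (· * (Q 1)⁻¹) h1
      simp only [Matrix.mul_assoc, m3_mul_inv hq, Matrix.mul_one] at h2
      simp only [LinearMap.comp_apply, LinearMap.mulLeft_apply, Matrix.mul_assoc, h2])
    (Function.Bijective.comp (g := fun X => (P 1)⁻¹ * X)
      ⟨fun X Y e => by simpa [m3_mul_inv' hp] using congrArg (P 1 * ·) e,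
        fun X => ⟨P 1 * X, m3_inv_mul' hp X⟩⟩ hP)
  simp only [LinearMap.comp_apply, LinearMap.mulLeft_apply] at k3
  have k4 : ∀ X, P X = P 1 * g * X * g⁻¹ := fun X => by
    rw [Matrix.mul_assoc, Matrix.mul_assoc, ← Matrix.mul_assoc g, ← k3, m3_mul_inv' hp]
  have k5 : ∀ Y, Q Y = g * Y * ((Q 1)⁻¹ * g)⁻¹ := fun Y => by
    rw [k2 Y, k3, Matrix.mul_inv_rev, m3_inv_inv hq, Matrix.mul_assoc]
  have ha : (P 1 * g).det ≠ 0 := by simp [hp, hg]
  have hc : ((Q 1)⁻¹ * g).det ≠ 0 := by simp [hq, hg]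
  refine ⟨P 1 * g, g, (Q 1)⁻¹ * g, ha, hg, hc, k4, k5, fun Z => ?_⟩
  generalize P 1 * g = a at *
  generalize (Q 1)⁻¹ * g = c at *
  have k6 : c⁻¹ * R Z * a = ν • Z := Matrix.ext_iff_trace_mul_left.2 fun X => by
    have h1 := h X 1 Z
    rw [k4, k5, Matrix.mul_assoc, Matrix.mul_assoc, Matrix.mul_assoc, Matrix.trace_mul_comm a]
      at h1
    simpa only [Matrix.mul_assoc, Matrix.mul_one, Matrix.one_mul, m3_inv_mul' hg,
      Matrix.mul_smul, Matrix.trace_smul, smul_eq_mul] using h1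
  rw [← Matrix.smul_mul, ← Matrix.mul_smul, ← k6]
  simp only [Matrix.mul_assoc, m3_mul_inv' hc, m3_mul_inv ha, Matrix.mul_one]

variable [CharZero F]

theorem hh_det : (hh F).det ≠ 0 := by simp [Fin.prod_univ_three]

theorem hh_map (γ : Gl F) : (hh F).map γ = hh F := by
  ext i j
  fin_cases i <;> fin_cases j <;> simp [map_ofNat]

theorem hh_mul_eq_zero {U : M3 F} (h : hh F * U = 0) : U = 0 := by
  rw [← m3_inv_mul' hh_det U, h, mul_zero]

theorem mul_hh_eq_zero {U : M3 F} (h : U * hh F = 0) : U = 0 := by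
  rw [← Matrix.mul_one U, ← m3_mul_inv (hh_det (F := F)), ← Matrix.mul_assoc, h, zero_mul]

theorem deg_X {x : J1 F} :
    sl1 (hh F) (sl1 (hh F) x) = sl1 (hh F) x + (2 : F) • x ↔ tY x = 0 ∧ tZ x = 0 := by
  obtain ⟨X, Y, Z, rfl⟩ := exists_mkT x
  simp only [sl1_mkT, mkT_smul, mkT_add, mkT_inj, ← Matrix.mul_assoc, Matrix.neg_mul, neg_neg,
    tY_mkT, tZ_mkT]
  rw [Matrix.mul_assoc Z, hh_sq]
  simp only [add_mul, mul_add, Matrix.smul_mul, Matrix.mul_smul, Matrix.one_mul, Matrix.mul_one,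
    true_and, zero_add, add_left_inj]
  refine ⟨fun h => ⟨by simpa using h.1.symm, mul_hh_eq_zero ?_⟩, fun h => by simp [h.1, h.2]⟩
  refine smul_right_injective _ (two_ne_zero (α := F)) ?_
  linear_combination (norm := module) h.2

theorem deg_Y {x : J1 F} : sl1 (hh F) x = 0 ↔ tX x = 0 ∧ tZ x = 0 := by
  rw [sl1_apply, mkT_eq_zero, neg_eq_zero]
  exact ⟨fun h => ⟨hh_mul_eq_zero h.1, mul_hh_eq_zero h.2.2⟩, fun h => by simp [h.1, h.2]⟩

theorem deg_Z {x : J1 F} :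
    sl1 (hh F) (sl1 (hh F) x) = -sl1 (hh F) x + (2 : F) • x ↔ tX x = 0 ∧ tY x = 0 := by
  obtain ⟨X, Y, Z, rfl⟩ := exists_mkT x
  simp only [sl1_mkT, mkT_smul, mkT_add, mkT_neg, mkT_inj, ← Matrix.mul_assoc, Matrix.neg_mul,
    neg_neg, tY_mkT, tX_mkT]
  rw [Matrix.mul_assoc Z, hh_sq]
  simp only [add_mul, mul_add, Matrix.smul_mul, Matrix.mul_smul, Matrix.one_mul, Matrix.mul_one,
    and_true, neg_zero, zero_add, add_left_inj]
  refine ⟨fun h => ⟨hh_mul_eq_zero ?_, by simpa using h.2.symm⟩, fun h => by simp [h.1, h.2]⟩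
  refine smul_right_injective _ (two_ne_zero (α := F)) ?_
  linear_combination (norm := module) h.1

/-- The three inclusions. -/
def iX : M3 F →ₗ[F] J1 F := ⟨⟨fun X => mkT X 0 0, fun X Y => by simp [mkT_add]⟩,
  fun t X => by simp [mkT_smul]⟩

/-- The three inclusions. -/
def iY : M3 F →ₗ[F] J1 F := ⟨⟨fun X => mkT 0 X 0, fun X Y => by simp [mkT_add]⟩,
  fun t X => by simp [mkT_smul]⟩

/-- The three inclusions. -/
def iZ : M3 F →ₗ[F] J1 F := ⟨⟨fun X => mkT 0 0 X, fun X Y => by simp [mkT_add]⟩,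
  fun t X => by simp [mkT_smul]⟩

theorem iX_apply (X : M3 F) : iX X = mkT X 0 0 := rfl

theorem iY_apply (X : M3 F) : iY X = mkT 0 X 0 := rfl

theorem iZ_apply (X : M3 F) : iZ X = mkT 0 0 X := rfl

/-- The normal form of a linear similitude of one summand. -/
theorem nf_lin {f : J1 F →ₗ[F] J1 F} {ν : F} (hb : Function.Surjective f) (hν : ν ≠ 0)
    (hc : ∀ x, cub (f x) = ν * cub x) (hf : ∀ x, f (sl1 (hh F) x) = sl1 (hh F) (f x)) :
    ∃ a b c, TD a b c ![1, 1, ν] ∧ (∀ x, f x = act1 a b c ![1, 1, ν] x) ∧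
      a * hh F = hh F * a := by
  have k1 : ∀ X, tY (f (iX X)) = 0 ∧ tZ (f (iX X)) = 0 := fun X => deg_X.1 (by
    rw [← hf, ← hf, ← map_smul, ← map_add, deg_X.2 ⟨by simp [iX_apply], by simp [iX_apply]⟩])
  have k2 : ∀ X, tX (f (iY X)) = 0 ∧ tZ (f (iY X)) = 0 := fun X => deg_Y.1 (by
    rw [← hf, deg_Y.2 ⟨by simp [iY_apply], by simp [iY_apply]⟩, map_zero])
  have k3 : ∀ X, tX (f (iZ X)) = 0 ∧ tY (f (iZ X)) = 0 := fun X => deg_Z.1 (by
    rw [← hf, ← hf, ← map_smul, ← map_neg, ← map_add,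
      deg_Z.2 ⟨by simp [iZ_apply], by simp [iZ_apply]⟩])
  obtain ⟨P, hP⟩ : ∃ P : M3 F →ₗ[F] M3 F, ∀ X, P X = tX (f (iX X)) := ⟨tX ∘ₗ f ∘ₗ iX, fun _ => rfl⟩
  obtain ⟨Q, hQ⟩ : ∃ P : M3 F →ₗ[F] M3 F, ∀ X, P X = tY (f (iY X)) := ⟨tY ∘ₗ f ∘ₗ iY, fun _ => rfl⟩
  obtain ⟨R, hR⟩ : ∃ P : M3 F →ₗ[F] M3 F, ∀ X, P X = tZ (f (iZ X)) := ⟨tZ ∘ₗ f ∘ₗ iZ, fun _ => rfl⟩
  have k4 : ∀ X Y Z, f (mkT X Y Z) = mkT (P X) (Q Y) (R Z) := fun X Y Z => by
    rw [show mkT X Y Z = iX X + iY Y + iZ Z by simp [iX_apply, iY_apply, iZ_apply, mkT_add],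
      map_add, map_add]
    exact ext_T (by simp [k2, k3, hP]) (by simp [k1, k3, hQ]) (by simp [k1, k2, hR])
  have k5 : ∀ X Y Z, (P X).det + (Q Y).det + (R Z).det - (P X * Q Y * R Z).trace =
      ν * (X.det + Y.det + Z.det - (X * Y * Z).trace) := fun X Y Z => by
    rw [← cub_mkT, ← cub_mkT, ← k4, hc]
  have d1 : ∀ X, (P X).det = ν * X.det := fun X => by simpa using k5 X 0 0
  have d2 : ∀ X, (Q X).det = ν * X.det := fun X => by simpa using k5 0 X 0
  have d3 : ∀ X, (R X).det = ν * X.det := fun X => by simpa using k5 0 0 X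
  have s1 : Function.Surjective P := fun X => by
    obtain ⟨x, hx⟩ := hb (mkT X 0 0)
    rw [← mkT_eta x, k4, mkT_inj] at hx
    exact ⟨_, hx.1⟩
  have s3 : Function.Surjective R := fun X => by
    obtain ⟨x, hx⟩ := hb (mkT 0 0 X)
    rw [← mkT_eta x, k4, mkT_inj] at hx
    exact ⟨_, hx.2.2⟩
  obtain ⟨a, b, c, ha, hb, hc, e1, e2, e3⟩ := triple_m3 (P := P) (Q := Q) (R := R) (ν := ν)
    ⟨LinearMap.injective_iff_surjective.2 s1, s1⟩ s3 (by simp [d1, hν]) (by simp [d2, hν])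
    fun X Y Z => by
      have h1 := k5 X Y Z
      rw [d1, d2, d3] at h1
      linear_combination -h1
  have f1 := d1 1
  have f2 := d2 1
  have f3 := d3 1
  rw [e1] at f1
  rw [e2] at f2
  rw [e3] at f3
  simp only [Matrix.det_mul, m3_det_inv, Matrix.det_one, mul_one,
    Matrix.det_smul, Fintype.card_fin] at f1 f2 f3
  field_simp at f1 f2 f3
  refine ⟨a, b, c, ⟨ha, hb, hc, fun i => ?_, ?_, ?_, ?_⟩, fun x => ?_, ?_⟩
  · fin_cases i <;> simp [hν]
  · simp only [cons_val]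
    linear_combination f1
  · simp only [cons_val]
    linear_combination f2
  · simp only [cons_val]
    linear_combination f3
  · rw [← mkT_eta x, k4, act1_mkT, e1, e2, e3]
    simp
  · have h1 := hf (mkT b 0 0)
    rw [sl1_mkT, k4, k4, sl1_mkT, mkT_inj, e1, e1] at h1
    simpa only [Matrix.mul_assoc, m3_mul_inv hb, Matrix.mul_one] using h1.1

/-! The maps which commute or anticommute with the grading operator. -/

section cm

variable {γ γ' : Gl F} {κ κ' : Bool}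

omit [CharZero F] in
theorem cm_false {φ : W1 F → W1 F} :
    Cm false φ ↔ ∀ v, φ (slA (hh F) v) = slA (hh F) (φ v) := by simp [Cm]

omit [CharZero F] in
theorem cm_true {φ : W1 F → W1 F} :
    Cm true φ ↔ ∀ v, φ (slA (hh F) v) = -slA (hh F) (φ v) := by simp [Cm]

theorem Cm.comp {φ φ' : W1 F → W1 F} (h : Cm κ φ) (h' : Cm κ' φ') (hs : Semi γ φ) :
    Cm (xor κ κ') (φ ∘ φ') := fun v => by
  rw [Function.comp_apply, h', hs.smul, h]
  cases κ <;> cases κ' <;> simp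

theorem Cm.mul {φ φ' : Perm (W1 F)} (h : Cm κ φ) (h' : Cm κ' φ') (hs : Semi γ φ) :
    Cm (xor κ κ') ⇑(φ * φ') := h.comp h' hs

theorem Cm.symm {φ : W1 F ≃ W1 F} (h : Cm κ φ) (hs : Semi γ φ) : Cm κ φ.symm := fun v => by
  apply φ.injective
  rw [hs.smul, h, φ.apply_symm_apply, φ.apply_symm_apply]
  cases κ <;> simp

theorem Cm.inv {φ : Perm (W1 F)} (h : Cm κ φ) (hs : Semi γ φ) : Cm κ ⇑φ⁻¹ := h.symm hs

omit [CharZero F] in
theorem cm_one : Cm false ⇑(1 : Perm (W1 F)) := cm_false.2 fun _ => rfl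

theorem Cm.pow {φ : Perm (W1 F)} (h : Cm false φ) (hs : Semi γ φ) (n : ℕ) :
    Cm false ⇑(φ ^ n) := by
  induction n with
  | zero => exact cm_one
  | succ n ih =>
    rw [pow_succ']
    exact h.mul ih hs

theorem cm_Z6 {z : Perm (W1 F)} (hz : z ∈ Z6 (1 : Fˣ) 1 1) : Cm false z :=
  cm_false.2 (Z6_slA hz _)

omit [CharZero F] in
theorem cm_swE (ε : Bool) : Cm false (swE ε : Perm (W1 F)) := cm_false.2 (swE_slA ε _)

theorem cm_tp6 : Cm true (tp6 : Perm (W1 F)) :=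
  cm_true.2 fun v => by rw [tp6_slA, hh_transpose, slA_neg]

theorem cm_jW (γ : Gl F) : Cm false (jW γ) := cm_false.2 fun v => by rw [jW_slA, hh_map]

theorem cm_stW (γ : Gl F) (κ : Bool) : Cm κ (stW γ κ) := by
  cases κ
  · simpa [stW] using cm_jW γ
  · exact cm_tp6.mul (cm_jW γ) (γ := 1) (mem_S6.1 tp6_mem).semi

theorem TNF.cm {ε : Bool} {a b c : M3 F} {l : Fin 3 → F} {m : F} {φ : W1 F → W1 F}
    (h : TNF γ ε κ a b c l m φ) (hs : Semi γ φ) (ha : a * hh F = hh F * a) : Cm κ φ := fun v => by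
  rw [h.slA hs, hh_map, hh_transpose]
  have h1 : a * hh F * a⁻¹ = hh F := by rw [ha, Matrix.mul_assoc, m3_mul_inv h.da, Matrix.mul_one]
  cases κ
  · simp [h1]
  · rw [if_pos rfl, if_pos rfl, mul_neg, neg_mul, h1, slA_neg, neg_one_smul]

end cm

theorem comm_hh {a : M3 F} :
    a * hh F = hh F * a ↔ a 0 1 = 0 ∧ a 0 2 = 0 ∧ a 1 0 = 0 ∧ a 2 0 = 0 := by
  refine ⟨fun h => ⟨?_, ?_, ?_, ?_⟩, fun h => ?_⟩
  · have h1 := congrFun (congrFun h 0) 1
    simp at h1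
    linear_combination (-1 / 3 : F) * h1
  · have h1 := congrFun (congrFun h 0) 2
    simp at h1
    linear_combination (-1 / 3 : F) * h1
  · have h1 := congrFun (congrFun h 1) 0
    simp at h1
    linear_combination (1 / 3 : F) * h1
  · have h1 := congrFun (congrFun h 2) 0
    simp at h1
    linear_combination (1 / 3 : F) * h1
  · ext i j
    fin_cases i <;> fin_cases j <;> simp [h.1, h.2.1, h.2.2.1, h.2.2.2, mul_comm]

/-- (NF) -/
theorem nfStmt : NFStmt := by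
  intro F _ _ φ γ ε κ ν₁ ν₂ m h hc
  have h1 : Sim6 (1 : Gl F) false (if ε then ν₂ else ν₁) (if ε then ν₁ else ν₂) m
      (swE ε * φ * (stW γ κ)⁻¹ : Perm (W1 F)) :=
    (((sim6_one.2 (sim6_swE ε)).comp h).comp (sim6_stW γ κ).symm).cast (by simp) (by simp)
      (by cases ε <;> simp) (by cases ε <;> simp) (by simp)
  have h2 : Cm false (swE ε * φ * (stW γ κ)⁻¹ : Perm (W1 F)) := by
    have := ((cm_swE ε).mul hc (γ := 1) (sim6_swE ε).semi).mul
      ((cm_stW γ κ).inv (sim6_stW γ κ).semi) ((sim6_one.2 (sim6_swE ε)).comp h).semi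
    simpa using this
  obtain ⟨a, b, c, k1, k2, k3⟩ := nf_lin (f := Semi.lin (semi_one.1 h1.pr.s1)) h1.pr.b1.2
    h1.ne.1 h1.pr.c1 fun x => by
      have := congrArg Prod.fst (cm_false.1 h2 (x, 0))
      rw [slA_eq, map_zero] at this
      exact this
  have h3 : swE ε * φ * (stW γ κ)⁻¹ = k1.act h.ne.2.2 :=
    h1.ext_fst (sim6_one.2 (k1.sim h.ne.2.2)) fun x => by
      rw [h1.inl, TD.act_apply, map_zero]
      exact congrArg (·, 0) (k2 x)
  have h4 : φ = swE ε * k1.act h.ne.2.2 * stW γ κ := by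
    rw [← h3]
    ext1 v
    simp [swE_swE]
  refine ⟨a, b, c, ![1, 1, if ε then ν₂ else ν₁], ?_, by simp, comm_hh.1 k3⟩
  rw [h4]
  exact k1.tnf_gen _ γ ε κ

end Vale.Agent.P011N.Cl
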