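import Vale.Agent.P011N.Cl.TC.NF

/-!
The maps which respect the components of degrees `2` and `-2`.
-/

namespace Vale.Agent.P011N.Cl

open Vale.Agent.P011.MPQ Vale.Agent.P011.D4 Vale.Agent.P011.D4.Oct Vale.Agent.P011.E6 Equiv Matrix
open Vale.Agent.P011.E6O Vale.Agent.P011.E6.Alb

variable {F : Type} [Field F]

theorem sum_bilin {M : Type} [AddCommGroup M] [Module F M]
    (B : (Fin 3 → F) →ₗ[F] (Fin 3 → F) →ₗ[F] M) {S T : M3 F} {m : F} (hm : m ≠ 0)
    (h : ∀ i j, S i ⬝ᵥ T j = if i = j then m else 0) :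
    ∑ i, B (S i) (T i) = m • ∑ i, B (Pi.single i 1) (Pi.single i 1) := by
  have h1 : (m⁻¹ • S) * Tᵀ = 1 := by
    ext i j
    rw [Matrix.smul_mul, Matrix.smul_apply, Matrix.mul_apply', Matrix.one_apply]
    change m⁻¹ * (S i ⬝ᵥ T j) = _
    rw [h]
    split_ifs <;> simp [hm]
  have h2 : ∀ k l, ∑ i, S i k * T i l = if k = l then m else 0 := fun k l => by
    have h3 : (Tᵀ * (m⁻¹ • S)) l k = (1 : M3 F) l k := by rw [mul_eq_one_comm.1 h1]
    rw [Matrix.mul_smul, Matrix.smul_apply, Matrix.mul_apply, Matrix.one_apply, smul_eq_mul,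
      inv_mul_eq_iff_eq_mul₀ hm] at h3
    simp only [Matrix.transpose_apply, mul_comm (T _ _)] at h3
    rw [h3]
    by_cases hk : k = l <;> simp [hk, eq_comm]
  have h3 : ∀ v : Fin 3 → F, v = ∑ k, v k • (Pi.single k 1 : Fin 3 → F) := fun v => by
    ext k
    simp [Pi.single_apply]
  have h4 : ∀ i, B (S i) (T i) =
      ∑ k, ∑ l, (S i k * T i l) • B (Pi.single k 1) (Pi.single l 1) := fun i => by
    conv_lhs => rw [h3 (S i), h3 (T i)]
    simp only [map_sum, map_smul, LinearMap.sum_apply, LinearMap.smul_apply, Finset.smul_sum,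
      smul_smul]
    rw [Finset.sum_comm]
    simp only [mul_comm]
  simp only [h4]
  rw [Finset.sum_comm, Finset.smul_sum]
  refine Finset.sum_congr rfl fun k _ => ?_
  rw [Finset.sum_comm]
  simp only [← Finset.sum_smul, h2, ite_smul, zero_smul, Finset.sum_ite_eq, Finset.mem_univ,
    if_true]

variable [CharZero F]

/-- The elements of degree `2`, as a linear map. -/
def pPL : (Fin 3 → F) →ₗ[F] J1 F where
  toFun := pP
  map_add' x y := by simp [pP, mkT_add, vecMulVec_add]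
  map_smul' t x := by simp [pP, mkT_smul, vecMulVec_smul]

/-- The elements of degree `-2`, as a linear map. -/
def pQL : (Fin 3 → F) →ₗ[F] J1 F where
  toFun := pQ
  map_add' x y := by simp [pQ, mkT_add, add_vecMulVec]
  map_smul' t x := by simp [pQ, mkT_smul, smul_vecMulVec]

theorem pP_add (x y : Fin 3 → F) : pP (x + y) = pP x + pP y := map_add pPL x y

theorem pP_smul (t : F) (x : Fin 3 → F) : pP (t • x) = t • pP x := map_smul pPL t x

theorem pP_neg (x : Fin 3 → F) : pP (-x) = -pP x := map_neg pPL x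

@[simp] theorem pP_zero : pP (0 : Fin 3 → F) = 0 := map_zero pPL

theorem pQ_add (x y : Fin 3 → F) : pQ (x + y) = pQ x + pQ y := map_add pQL x y

theorem pQ_smul (t : F) (x : Fin 3 → F) : pQ (t • x) = t • pQ x := map_smul pQL t x

theorem pQ_neg (x : Fin 3 → F) : pQ (-x) = -pQ x := map_neg pQL x

@[simp] theorem pQ_zero : pQ (0 : Fin 3 → F) = 0 := map_zero pQL

theorem pP_inj {x y : Fin 3 → F} (h : pP x = pP y) : x = y := funext fun i => by
  simpa [vecMulVec_apply] using congrFun (congrFun (mkT_inj.1 h).1 0) i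

theorem pQ_inj {x y : Fin 3 → F} (h : pQ x = pQ y) : x = y := funext fun i => by
  simpa [vecMulVec_apply] using congrFun (congrFun (mkT_inj.1 h).2.2 i) 0

theorem tf_pP (β : Fin 3 → F) (x : J1 F) : tf (pP β) x = β ⬝ᵥ fun i => tZ x i 0 := by
  simp [pP, tf_T, Matrix.trace_fin_three, Matrix.mul_apply, vecMulVec_apply, dotProduct]

theorem tf_pQ (z : Fin 3 → F) (x : J1 F) : tf (pQ z) x = z ⬝ᵥ tX x 0 := by
  simp [pQ, tf_T, Matrix.trace_fin_three, Matrix.mul_apply, vecMulVec_apply, dotProduct,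
    Fin.sum_univ_three]

theorem tf_pP_pQ (β z : Fin 3 → F) : tf (pP β) (pQ z) = β ⬝ᵥ z := by
  simp [tf_pP, pQ, vecMulVec_apply]

theorem tp1_pP (β : Fin 3 → F) : tp1 (pP β) = pQ β := by simp [pP, pQ, tp1_mkT]

theorem tp1_pQ (β : Fin 3 → F) : tp1 (pQ β) = pP β := by simp [pP, pQ, tp1_mkT]

theorem cross_pP (β β' : Fin 3 → F) : cross (pP β) (pP β') = 0 := by
  rw [pP, pP, cross_mkT, mkT_eq_zero]
  refine ⟨by simp, by simp, ?_⟩
  rw [mx_eq]
  ext i j
  fin_cases i <;> fin_cases j <;> simp [vecMulVec_apply]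

theorem cross_pQ (β β' : Fin 3 → F) : cross (pQ β) (pQ β') = 0 := by
  have h := (sim6_one.2 (mem_S6.1 tp6_mem)).pr.cross (pP β) (pP β')
  rw [cross_pP, (sim6_one.2 (mem_S6.1 tp6_mem)).pr.s2.zero, one_smul, smul_zero] at h
  rw [← tp1_pP, ← tp1_pP]
  exact h

theorem sing3_pP (S : M3 F) : Sing3 fun i => pP (S i) := fun _ _ => cross_pP _ _

theorem sing3_pQ (S : M3 F) : Sing3 fun i => pQ (S i) := fun _ _ => cross_pQ _ _

/-- The elements of degree `2`. -/
theorem deg_two {x : J1 F} : sl1 (hh F) x = (2 : F) • x ↔ ∃ β, x = pP β := by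
  obtain ⟨X, Y, Z, rfl⟩ := exists_mkT x
  refine ⟨fun h => ⟨X 0, ?_⟩, ?_⟩
  · rw [sl1_mkT, mkT_smul, mkT_inj] at h
    obtain ⟨h1, h2, h3⟩ := h
    refine mkT_inj.2 ⟨?_, by simpa using h2.symm, ?_⟩
    · ext i j
      have h4 := congrFun (congrFun h1 i) j
      fin_cases i <;> simp [vecMulVec_apply] at h4 ⊢ <;> linear_combination (-1 / 3 : F) * h4
    · ext i j
      have h4 := congrFun (congrFun h3 i) j
      fin_cases j <;> simp at h4 ⊢
      · linear_combination (-1 / 4 : F) * h4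
      · linear_combination -h4
      · linear_combination -h4
  · rintro ⟨β, h⟩
    rw [h, pP, sl1_mkT, mkT_smul, mkT_inj]
    refine ⟨?_, by simp, by simp⟩
    ext i j
    fin_cases i <;> simp [vecMulVec_apply]

theorem tp1_sl1 (δ : M3 F) (x : J1 F) : tp1 (sl1 δ x) = -sl1 δᵀ (tp1 x) := by
  simp [sl1_apply, tp1_apply, mkT_neg]

/-- The elements of degree `-2`. -/
theorem deg_neg_two {x : J1 F} : sl1 (hh F) x = (-2 : F) • x ↔ ∃ z, x = pQ z := by
  have h1 : sl1 (hh F) x = (-2 : F) • x ↔ sl1 (hh F) (tp1 x) = (2 : F) • tp1 x := by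
    rw [← tp1.injective.eq_iff, tp1_sl1, hh_transpose, map_smul, neg_smul, neg_inj]
  rw [h1, deg_two]
  exact exists_congr fun z => by rw [← tp1_pQ, tp1.injective.eq_iff]

theorem sl1_pP (β : Fin 3 → F) : sl1 (hh F) (pP β) = (2 : F) • pP β := deg_two.2 ⟨_, rfl⟩

theorem sl1_pQ (z : Fin 3 → F) : sl1 (hh F) (pQ z) = (-2 : F) • pQ z := deg_neg_two.2 ⟨_, rfl⟩

/-- The grading operator in terms of the operators of the pairs. -/
theorem sl1_hh (x : J1 F) :
    sl1 (hh F) x = x + ∑ i, vop (pP (Pi.single i 1)) (pQ (Pi.single i 1)) x := by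
  obtain ⟨X, Y, Z, rfl⟩ := exists_mkT x
  simp only [vop_apply, tf_pQ, Fin.sum_univ_three, sl1_mkT]
  simp only [pP, pQ, cross_mkT, mkT_smul, mkT_sub, mkT_add, mkT_inj, mx_zero_left, tX_mkT]
  refine ⟨?_, ?_, ?_⟩
  · simp only [mx_eq]
    ext i j
    fin_cases i <;> fin_cases j <;> simp [vecMulVec_apply] <;> ring
  · ext i j
    fin_cases i <;> simp [vecMulVec_apply, Matrix.mul_apply, Fin.sum_univ_three]
  · ext i j
    fin_cases j <;> simp [vecMulVec_apply, Matrix.mul_apply, Fin.sum_univ_three]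
    ring

/-- The operators of the pairs of degrees `2` and `-2`. -/
def vopPQ : (Fin 3 → F) →ₗ[F] (Fin 3 → F) →ₗ[F] Module.End F (J1 F) :=
  LinearMap.mk₂ F (fun β z => vop (pP β) (pQ z)) (fun _ _ _ => by rw [pP_add, vop_add_left])
    (fun _ _ _ => by rw [pP_smul, vop_smul_left]) (fun _ _ _ => by rw [pQ_add, vop_add_right])
    (fun _ _ _ => by rw [pQ_smul, vop_smul_right])

theorem vopPQ_apply (β z : Fin 3 → F) : vopPQ β z = vop (pP β) (pQ z) := rfl

section pr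

variable {γ : Gl F} {ν₁ ν₂ m : F} {f g : J1 F → J1 F}

theorem Pr6.sl1_dual (h : Pr6 γ ν₁ ν₂ m f g) {δ δ' : M3 F}
    (h1 : ∀ x, f (sl1 δ x) = sl1 δ' (f x)) (y : J1 F) : g (sl1 δ y) = sl1 δ' (g y) :=
  eq_of_tf fun x => by
    obtain ⟨x, rfl⟩ := h.b1.2 x
    have k1 := tf_sl1 δ' (f x) (g y)
    have k2 := congrArg γ (tf_sl1 δ x y)
    rw [← h1, h.tf] at k1
    rw [map_add, map_zero] at k2
    rw [tf_comm, h.tf, tf_comm (sl1 δ' _)]
    linear_combination m * k2 - k1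

theorem Pr6.sl1_hh (h : Pr6 γ ν₁ ν₂ m f g) (h1 : ∀ β, ∃ β', f (pP β) = pP β')
    (h2 : ∀ z, ∃ z', g (pQ z) = pQ z') (x : J1 F) : f (sl1 (hh F) x) = sl1 (hh F) (f x) := by
  choose S hS using h1
  choose T hT using h2
  have k := LinearMap.congr_fun (sum_bilin vopPQ (S := fun i => S (Pi.single i 1))
    (T := fun i => T (Pi.single i 1)) h.ne.2.2 fun i j => by
      rw [← tf_pP_pQ, ← hS, ← hT, h.tf, tf_pP_pQ]
      by_cases hij : i = j <;> simp [hij]) (f x)
  simp only [LinearMap.sum_apply, LinearMap.smul_apply, vopPQ_apply] at k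
  simp only [← hS, ← hT, h.vop, ← Finset.smul_sum] at k
  rw [Cl.sl1_hh, Cl.sl1_hh, h.s1.add, h.s1.sum, smul_right_injective _ h.ne.2.2 k]

end pr

theorem gr_false {φ : Perm (W1 F)} {γ : Gl F} {ε : Bool} {ν₁ ν₂ m : F} (h : Sim6 γ ε ν₁ ν₂ m φ)
    (h1 : ∀ β, ∃ β', φ (pP β, 0) = inj ε (pP β'))
    (h2 : ∀ z, ∃ z', φ (0, pQ z) = inj (!ε) (pQ z')) : Cm false φ := by
  have k1 := ((sim6_one.2 (sim6_swE ε)).comp h).cast (γ' := γ) (ε' := false) (by simp) (by simp)
    rfl rfl rfl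
  rw [← Perm.coe_mul] at k1
  have k2 := k1.pr.sl1_hh
    (fun β => (h1 β).imp fun β' e => by cases ε <;> simp [fs6, e, swE, sw6_apply, inj])
    (fun z => (h2 z).imp fun z' e => by cases ε <;> simp [sn6, e, swE, sw6_apply, inj])
  have k3 : Cm false (swE ε * φ : Perm (W1 F)) := cm_false.2 fun v => by
    obtain ⟨x, y⟩ := v
    rw [slA_eq, k1.apply_false, k1.apply_false, slA_eq, k2, k1.pr.sl1_dual k2]
  have k4 := (cm_swE ε).mul k3 (γ := 1) (sim6_swE ε).semi
  rwa [show swE ε * (swE ε * φ) = φ from Equiv.ext fun v => swE_swE ε _] at k4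

theorem gr_true {φ : Perm (W1 F)} {γ : Gl F} {ε : Bool} {ν₁ ν₂ m : F} (h : Sim6 γ ε ν₁ ν₂ m φ)
    (h1 : ∀ β, ∃ z', φ (pP β, 0) = inj ε (pQ z'))
    (h2 : ∀ z, ∃ β', φ (0, pQ z) = inj (!ε) (pP β')) : Cm true φ := by
  have k0 := sim6_one.2 (mem_S6.1 (tp6_mem (F := F)))
  have k1 := (k0.comp h).cast (γ' := γ) (ε' := ε) (by simp) (by simp) rfl rfl rfl
  rw [← Perm.coe_mul] at k1
  have k3 := gr_false k1 (fun β => (h1 β).imp fun z e => by
      rw [Perm.mul_apply, e, tp6_inj, tp1_pQ])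
    fun z => (h2 z).imp fun β e => by rw [Perm.mul_apply, e, tp6_inj, tp1_pP]
  have k4 := cm_tp6.mul k3 k0.semi
  rwa [show tp6 * (tp6 * φ) = φ from Equiv.ext fun v => tp6_tp6 _] at k4

theorem vop_pP_pP (β ζ : Fin 3 → F) : vop (pP β) (pP ζ) = 0 := LinearMap.ext fun x => by
  obtain ⟨X, Y, Z, rfl⟩ := exists_mkT x
  simp only [vop_apply, tf_pP, LinearMap.zero_apply]
  simp only [pP, cross_mkT, mkT_smul, mkT_sub, mkT_eq_zero, mx_zero_left, tZ_mkT]
  refine ⟨?_, ?_, ?_⟩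
  · ext i j
    fin_cases i <;> simp [vecMulVec_apply, Matrix.mul_apply, Fin.sum_univ_three, dotProduct]
    ring
  · simp only [mx_eq]
    ext i j
    fin_cases i <;> fin_cases j <;>
      simp [vecMulVec_apply, Matrix.vecMul, dotProduct, Fin.sum_univ_three]
  · simp only [mx_eq]
    ext i j
    fin_cases i <;> fin_cases j <;>
      simp [vecMulVec_apply, Matrix.mul_apply, Fin.sum_univ_three]

theorem sl1_hh' (ξ : J1 F) :
    sl1 (hh F) ξ = -ξ - ∑ i, vop (pQ (Pi.single i 1)) (pP (Pi.single i 1)) ξ :=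
  eq_of_tf fun y => by
    have h := tf_sl1 (hh F) y ξ
    rw [sl1_hh y] at h
    rw [tf_comm, tf_comm _ y]
    simp only [Fin.sum_univ_three, tf_add_left, tf_add_right, tf_sub_right, tf_neg_right,
      tf_vop] at h ⊢
    linear_combination h

theorem pP_single_ne (i : Fin 3) : pP (Pi.single i 1 : Fin 3 → F) ≠ 0 := fun h => by
  simpa using congrFun (pP_inj (h.trans pP_zero.symm)) i

/-- The annihilator of the space of degree `2`. -/
theorem ann_pP {ξ : J1 F} : (∀ β, vop (pP β) ξ = 0) ↔ ∃ ζ, ξ = pP ζ := by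
  refine ⟨fun h => deg_two.1 ?_, ?_⟩
  · have h1 : ∀ i, vop (pQ (Pi.single i 1)) (pP (Pi.single i 1)) ξ = -ξ := fun i => by
      have k1 := LinearMap.congr_fun (h (Pi.single 0 1)) (pP (Pi.single i 1))
      rw [vop_apply, cross_pP, cross_zero_right, sub_zero, LinearMap.zero_apply, smul_eq_zero,
        tf_comm] at k1
      have k2 : vop ξ (pP (Pi.single i 1)) (pQ (Pi.single i 1)) = 0 := eq_zero_of_tf fun y => by
        rw [tf_vop, h, LinearMap.zero_apply, tf_zero_right]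
      rw [vop_apply, tf_pP_pQ, cross_comm ξ, sub_eq_zero] at k2
      rw [vop_apply, k1.resolve_right (pP_single_ne 0), ← k2]
      simp
    rw [sl1_hh']
    simp only [h1, Fin.sum_univ_three]
    module
  · rintro ⟨ζ, rfl⟩ β
    exact vop_pP_pP β ζ

theorem vop_eq_zero_comm {x ξ : J1 F} (h : vop x ξ = 0) : vop ξ x = 0 :=
  LinearMap.ext fun y => eq_zero_of_tf fun z => by
    rw [tf_vop, h, LinearMap.zero_apply, tf_zero_right]

theorem Vop_eq_zero {x ξ : J1 F} : (∀ v, Vop x ξ v = 0) ↔ vop x ξ = 0 := by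
  refine ⟨fun h => LinearMap.ext fun y => ?_, fun h v => ?_⟩
  · have h1 := h (y, 0)
    rw [Vop_eq, Prod.mk_eq_zero] at h1
    rw [h1.1, LinearMap.zero_apply]
  · rw [Vop_eq, h, vop_eq_zero_comm h]
    simp

theorem Pr6.vop_eq_zero {γ : Gl F} {ν₁ ν₂ m : F} {f g : J1 F → J1 F} (h : Pr6 γ ν₁ ν₂ m f g)
    {x ξ : J1 F} : Cl.vop (f x) (g ξ) = 0 ↔ Cl.vop x ξ = 0 := by
  refine ⟨fun h1 => LinearMap.ext fun y => h.b1.1 ?_, fun h1 => LinearMap.ext fun y => ?_⟩
  · have h2 := h.vop x ξ y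
    rw [h1, LinearMap.zero_apply, eq_comm, smul_eq_zero] at h2
    rw [h2.resolve_left h.ne.2.2, LinearMap.zero_apply, h.s1.zero]
  · obtain ⟨y, rfl⟩ := h.b1.2 y
    rw [h.vop, h1, LinearMap.zero_apply, h.s1.zero, smul_zero, LinearMap.zero_apply]

/-- The annihilator of the space of degree `-2`. -/
theorem ann_pQ {x : J1 F} : (∀ z, vop x (pQ z) = 0) ↔ ∃ ζ, x = pQ ζ := by
  have h0 : ∀ y ξ : J1 F, vop (tp1 y) (tp1 ξ) = 0 ↔ vop y ξ = 0 := fun y ξ =>
    (sim6_one.2 (mem_S6.1 tp6_mem)).pr.vop_eq_zero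
  have h1 : (∀ z, vop x (pQ z) = 0) ↔ ∀ z, vop (pP z) (tp1 x) = 0 := forall_congr' fun z => by
    rw [← tp1_pQ, h0]
    exact ⟨vop_eq_zero_comm, vop_eq_zero_comm⟩
  rw [h1, ann_pP]
  exact exists_congr fun z => by rw [← tp1_pQ, tp1.injective.eq_iff]

/-- (GR) -/
theorem grStmt : GRStmt := fun _ _ _ =>
  ⟨fun _ _ _ _ _ _ h => ⟨gr_false h, gr_true h⟩,
    fun _ => (forall_congr' fun _ => Vop_eq_zero).trans ann_pP,
    fun _ => (forall_congr' fun _ => Vop_eq_zero).trans ann_pQ⟩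

end Vale.Agent.P011N.Cl
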