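import Vale.Agent.P011N.Cl.TC.B2a
import Vale.Agent.P011N.Cl.B2.Lag
import Vale.Agent.P011N.Cl.MV.Pl

/-!
A rational grading over the totally imaginary field.
-/

namespace Vale.Agent.P011N.Cl.B2

open Vale.Agent.P011.MPQ Vale.Agent.P011.D4 Vale.Agent.P011.D4.Oct Vale.Agent.P011.E6 Equiv Matrix
open Vale.Agent.P011.E6O Vale.Agent.P011.E6.Alb

section tnf

variable {F : Type} [Field F] [CharZero F] {γ δ : Gl F} {ε κ : Bool} {a b c b' c' : M3 F}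
  {l l' : Fin 3 → F} {m m' k : F} {φ p : Perm (W1 F)}

theorem ext_semi (γ : Gl F) {A B : M3 F}
    (h : ∀ β : Fin 3 → F, (A *ᵥ fun i => γ (β i)) = B *ᵥ fun i => γ (β i)) : A = B :=
  Matrix.ext_iff_mulVec.2 fun β => by simpa using h fun i => γ.symm (β i)

theorem pR_inj {x y : Fin 3 → F} (h : pR x = pR y) : x = y :=
  (pPR_inj (β := 0) (β' := 0) (by rw [h])).2

theorem semi_pow (h : Semi γ φ) (n : ℕ) : Semi (⇑(γ ^ n)) ⇑(φ ^ n) := by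
  induction n with
  | zero => exact semi_id
  | succ n ih =>
    rw [pow_succ, pow_succ]
    exact ih.mul h

theorem det_rel {φ : W1 F → W1 F} (h : TNF γ ε κ a b c l m φ) :
    (l 0 • b⁻¹ᵀ).det ≠ 0 ∧ (l 2 • c).det = a.det ^ 2 * (l 0 • b⁻¹ᵀ).det := by
  have h0 := h.db
  refine ⟨by simp [h.ne, h0], ?_⟩
  simp only [det_smul, det_transpose, m3_det_inv, Fintype.card_fin]
  field_simp
  linear_combination (l 2 * b.det) * h.r2 - (l 0 * a.det) * h.r0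

theorem herm_rel (h : TNF γ true true (hyK k) b c l m φ) (hγ : γ * γ = 1)
    (hz : φ * φ ∈ Z6 (1 : Fˣ) 1 1) : ∃ lam : F, (l 2 • c).map γ = lam • (l 2 • c)ᵀ ∧
      (l 0 • b⁻¹ᵀ).map γ = lam • (l 0 • b⁻¹ᵀ)ᵀ := by
  obtain ⟨s, t, hs⟩ := mem_Z6.1 hz
  have e : ∀ β : Fin 3 → F, (fun i => γ (γ (β i))) = β := fun β => funext fun i => by
    rw [← AlgEquiv.mul_apply, hγ, AlgEquiv.one_apply]
  have h0 := h.ne 0
  have h2 := h.ne 2
  have hm := h.ne'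
  have k1 : ((m / l 2) • c⁻¹ᵀ) * (l 2 • c).map γ = s • (1 : M3 F) :=
    Matrix.ext_iff_mulVec.2 fun β => pP_inj (by
      have k := congrArg Prod.fst (hs (pP β, 0))
      rw [Perm.mul_apply, (h.hy_fst _).1, (h.hy_snd _).2.2.1, map_mulVec', e, mulVec_mulVec] at k
      rw [smul_mulVec, one_mulVec, pP_smul]
      exact k)
  have k2 : ((m / l 0) • b) * (l 0 • b⁻¹ᵀ).map γ = s • (1 : M3 F) :=
    Matrix.ext_iff_mulVec.2 fun β => pR_inj (by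
      have k := congrArg Prod.fst (hs (pR β, 0))
      rw [Perm.mul_apply, (h.hy_fst _).2.2.1, (h.hy_snd _).1, map_mulVec', e, mulVec_mulVec] at k
      rw [smul_mulVec, one_mulVec, pR_smul]
      exact k)
  refine ⟨s / m, ?_, ?_⟩
  · have k3 := congrArg (fun X => ((l 2 / m) • cᵀ) * X) k1
    simp only [Matrix.smul_mul, Matrix.mul_smul, smul_smul, ← Matrix.mul_assoc, ← transpose_mul,
      m3_inv_mul h.dc, transpose_one, Matrix.one_mul, Matrix.mul_one] at k3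
    rw [show m / l 2 * (l 2 / m) = 1 by field_simp, one_smul] at k3
    rw [k3, transpose_smul, smul_smul]
    congr 1
    field_simp
  · have k3 := congrArg (fun X => ((l 0 / m) • b⁻¹) * X) k2
    simp only [Matrix.smul_mul, Matrix.mul_smul, smul_smul, m3_inv_mul' h.db, Matrix.mul_one] at k3
    rw [show m / l 0 * (l 0 / m) = 1 by field_simp, one_smul] at k3
    rw [k3, transpose_smul, smul_smul, transpose_transpose]
    congr 1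
    field_simp

theorem comm_rel (h : TNF γ true true (hyK k) b c l m φ) (h' : TNF δ false false 1 b' c' l' m' p)
    (hγ : δ * γ = γ * δ) {z : Perm (W1 F)} (hz : z ∈ Z6 (1 : Fˣ) 1 1) (he : φ * p = z * (p * φ)) :
    ∃ t : F, (l' 0 • b'⁻¹ᵀ)ᵀ * (l 2 • c) * (l' 0 • b'⁻¹ᵀ).map γ = t • (l 2 • c).map δ ∧
      (l' 2 • c')ᵀ * (l 0 • b⁻¹ᵀ) * (l' 2 • c').map γ = t • (l 0 • b⁻¹ᵀ).map δ := by
  obtain ⟨s, t, hs⟩ := mem_Z6.1 hz
  have e : ∀ β : Fin 3 → F, (fun i => δ (γ (β i))) = fun i => (γ * δ) (β i) :=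
    fun β => funext fun i => by rw [← AlgEquiv.mul_apply, hγ]
  have h0 := h'.ne 0
  have h2 := h'.ne 2
  have k1 : (l 2 • c) * (l' 0 • b'⁻¹ᵀ).map γ = t • (((m' / l' 0) • b') * (l 2 • c).map δ) :=
    ext_semi (γ * δ) fun β => pR_inj (by
      have k := congrArg (fun f : Perm (W1 F) => (f (pP β, 0)).2) he
      simp only [Perm.mul_apply, hs, h'.pP_fst, h'.pR_snd, inj, Bool.false_eq_true, if_false,
        (h.hy_fst _).1, Bool.not_false, if_true, map_mulVec', mulVec_mulVec, e] at k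
      rw [smul_mulVec, pR_smul]
      exact k)
  have k2 : (l 0 • b⁻¹ᵀ) * (l' 2 • c').map γ =
      t • (((m' / l' 2) • c'⁻¹ᵀ) * (l 0 • b⁻¹ᵀ).map δ) :=
    ext_semi (γ * δ) fun β => pP_inj (by
      have k := congrArg (fun f : Perm (W1 F) => (f (pR β, 0)).2) he
      simp only [Perm.mul_apply, hs, h'.pR_fst, h'.pP_snd, inj, Bool.false_eq_true, if_false,
        (h.hy_fst _).2.2.1, Bool.not_false, if_true, map_mulVec', mulVec_mulVec, e] at k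
      rw [smul_mulVec, pP_smul]
      exact k)
  refine ⟨t * m', ?_, ?_⟩
  · rw [Matrix.mul_assoc, k1]
    simp only [transpose_smul, transpose_transpose, Matrix.smul_mul, Matrix.mul_smul, smul_smul,
      m3_inv_mul' h'.db]
    congr 1
    field_simp
  · rw [Matrix.mul_assoc, k2]
    simp only [transpose_smul, Matrix.smul_mul, Matrix.mul_smul, smul_smul, ← Matrix.mul_assoc,
      ← transpose_mul, m3_inv_mul h'.dc, transpose_one, Matrix.one_mul]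
    congr 1
    field_simp

end tnf

variable {F : Type} [Field F] [NumberField F] {Γ : Subgroup (Gl F)} {r σ θ : Gl F} {d q e : F}
  {u : M3 F} {Φ Φ' : Subgroup (Perm (W1 F))}

theorem cfg_tr' (h : Cfg Γ r q u Φ) {ψ p : Perm (W1 F)} (hψ : ψ ∈ S6 (1 : Fˣ) 1 1) (h1 : p ∈ Φ)
    (h2 : Semi r p) (h3 : ∀ β, p (ψ (pP β, 0)) = ψ (pP (u *ᵥ fun i => r (β i)), 0)) :
    Cfg Γ r q u (tr ψ Φ) := by
  replace hψ := mem_S6.1 hψ
  refine ⟨h.dat.tr hψ, fun φ hφ γ hs => ?_, ψ.symm.permCongr p, symm_mem_tr.2 h1,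
    (semi_congr hψ.semi.symm_lin).2 h2, fun β => ?_⟩
  · have k1 := (MV.semi_congr hψ).2 hs
    obtain ⟨ε, _, _, _, k2⟩ := h.dat.sim_of hφ k1
    obtain ⟨_, _, _, k3⟩ := hψ.tr k2
    rw [k3.inner_iff, ← k2.inner_iff]
    exact h.inn _ hφ γ k1
  · rw [permCongr_apply, symm_symm, symm_apply_eq, h3]

theorem mov_S6 (h : Mov Φ Φ') {g : Perm (W1 F)} (hg : g ∈ S6 (1 : Fˣ) 1 1) : Mov Φ (tr g Φ') := by
  obtain ⟨ψ, _, _, _, h1, rfl⟩ := h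
  exact ⟨(ψ * g : Perm (W1 F)), _, _, _,
    ((sim6_one.2 h1).comp (sim6_one.2 (mem_S6.1 hg))).cast (γ' := 1) (mul_one _) rfl rfl rfl rfl,
    rfl⟩

theorem grOn_gen (h : OSet Γ r σ θ d q e u) (hΦ : Dat6 Γ Φ) {p φ : Perm (W1 F)} (h1 : p ∈ Φ)
    (h2 : Semi r p) (h3 : Cm false p) (k1 : φ ∈ Φ) (k2 : Semi σ φ) (k3 : Cm false φ) :
    GrOn Φ (fun γ => γ d = d) false := fun χ l1 γ l2 l3 => by
  have l4 : ∀ χ' ∈ Φ, Semi γ χ' → Cm false χ' → Cm false χ := fun χ' m1 m2 m3 => by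
    obtain ⟨z, m4, rfl⟩ := hΦ.exists_Z6 m1 l1 m2 l2
    exact (cm_Z6 m4).mul m3 (semi_one.2 (semi_Z6 m4))
  obtain ⟨i, rfl | rfl | rfl | rfl⟩ := MV.os_form h (hΦ.ov.mem l1 l2)
  · exact l4 _ (pow_mem h1 i) (semi_pow h2 i) (h3.pow h2 i)
  · exact l4 _ (mul_mem (pow_mem h1 i) k1) ((semi_pow h2 i).mul k2)
      ((h3.pow h2 i).mul k3 (semi_pow h2 i))
  · rw [AlgEquiv.mul_apply, h.θd, map_neg, MV.pow_fix h.rd] at l3
    exact absurd l3.symm (MV.os_ne h)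
  · rw [AlgEquiv.mul_apply, MV.os_sd h, map_neg, MV.pow_fix h.rd] at l3
    exact absurd l3.symm (MV.os_ne h)

/-- The matrix of the element over `σ`. -/
theorem exists_herm (h : OSet Γ r σ θ d q e u) (hΦ : Dat6 Γ Φ) {p φ : Perm (W1 F)} (h1 : p ∈ Φ)
    (h2 : Semi r p) (h3 : MV.ActA r false 1 p) (k1 : φ ∈ Φ) {ν₁ ν₂ m : F}
    (k2 : Sim6 σ true ν₁ ν₂ m φ) (k3 : Cm true φ) :
    ∃ a : M3 F, a.det ≠ 0 ∧ aᵀ = a.map σ ∧ a.map r = a ∧ MV.ActA σ true a φ := by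
  obtain ⟨a, a1, a2, -, a4⟩ := MV.exists_act nfStmt k2 k3
  refine ⟨a, a1, ?_, ?_, a4⟩
  · have l1 := MV.det_map_ne a1 σ
    have l0 : MV.ActA (⇑(σ * σ)) false (a * (a.map σ)⁻¹ᵀ) ⇑(φ * φ) := (a4.mul_true a4 a1 :)
    have l5 := k2.semi.mul k2.semi
    rw [h.σ2] at l0 l5
    obtain ⟨t, -, l2⟩ := (MV.actA_Z6 (hΦ.lin _ (mul_mem k1 k1) l5)).unique l0 (by simp)
      (by simp [a1, l1])
    have l3 : a = t • (a.map σ)ᵀ := by
      rw [← Matrix.one_mul (a.map σ)ᵀ, ← Matrix.smul_mul, ← l2, Matrix.mul_assoc, ← transpose_mul,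
        m3_mul_inv l1, transpose_one, Matrix.mul_one]
    have l4 := congrFun (congrFun l3 0) 0
    simp only [Matrix.smul_apply, transpose_apply, map_apply, a2, map_one, smul_eq_mul,
      mul_one] at l4
    rw [← l4, one_smul] at l3
    conv_lhs => rw [l3, transpose_transpose]
  · obtain ⟨z, l1, l2⟩ := hΦ.exists_Z6 (mul_mem k1 h1) (mul_mem h1 k1) (k2.semi.mul h2)
      (h.rσ ▸ h2.mul k2.semi)
    have l3 := (MV.actA_Z6 l1).mul_false (a4.mul_true h3 (by simp)) (by simp [a1])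
    have l4 := h3.mul_false a4 a1
    rw [← l2, one_mul, ← h.rσ, Matrix.map_one _ (map_zero σ) (map_one σ), inv_one, transpose_one,
      Matrix.mul_one, Matrix.one_mul] at l3
    rw [Matrix.one_mul] at l4
    exact MV.ActA.unique' l3 l4 a1 (MV.det_map_ne a1 r) a2 (by simp [a2])

/-- (B2) -/
theorem b2Stmt : B2Stmt := by
  intro F _ _ Γ r σ θ d q e u Φ h hc hG hG'
  have hle : stb (stb Γ d) q ≤ Γ := stb_le.trans stb_le
  have hr : r ∈ stb (stb Γ d) q := ⟨⟨MV.os_r h, h.rd⟩, h.rq⟩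
  obtain ⟨T₀, ψ₀, hch, -, -, hcm, hfix, htr⟩ := MV.n0 (Γ₀ := stb (stb Γ d) q) nfStmt hc.dat hle
    fun φ k1 γ k2 k3 => hG φ k1 γ k2 ⟨k3.1.2, k3.2⟩
  obtain ⟨_, _, _, hψ₀⟩ := hch.sim
  have c1 := MV.cfg_tr hc hψ₀ fun p _ _ hp β => by rw [hfix, hfix, hp]
  have g1 := MV.grOn_tr hψ₀ hcm hG
  have g1' := MV.grOn_tr hψ₀ hcm hG'
  have m1 : Mov Φ (tr ψ₀ Φ) := ⟨ψ₀, _, _, _, hψ₀, rfl⟩
  generalize tr ψ₀ Φ = Φ₁ at htr c1 g1 g1' m1
  have hT : ∀ χ ∈ Φ₁, ∀ γ ∈ stb (stb Γ d) q, Semi γ χ →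
      ∃ b c l m, TNF γ false false 1 b c l m χ := fun χ k1 γ k2 k3 => by
    obtain ⟨ε, _, _, _, k4⟩ := c1.dat.sim_of k1 k3
    obtain rfl := k4.inner_iff.1 ((c1.inn χ k1 γ k3).2 k2.2)
    obtain ⟨b, c, l, k5, -⟩ := MV.tnf_of_act nfStmt k4 (g1 χ k1 γ k3 ⟨k2.1.2, k2.2⟩)
      (htr χ k1 γ k2 k3) (by simp)
    exact ⟨b, c, l, _, k5⟩
  obtain ⟨p, p1, p2, p3⟩ := c1.cyc
  obtain ⟨b', c', l', m', p4⟩ := hT p p1 r hr p2
  have hu : u = l' 0 • b'⁻¹ᵀ := ext_semi r fun β =>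
    pP_inj (congrArg Prod.fst ((p3 β).symm.trans (p4.pP_fst β)))
  obtain ⟨M₀, n1, n2⟩ := exists_ne_pf _ (span_fxM (c1.dat.res hle) (by
      rintro χ ⟨k1, γ, k2, k3⟩
      obtain ⟨b, c, l, m, k4⟩ := hT χ k1 γ k2 k3
      exact ⟨γ, _, b, c, l, m, k3, k4⟩)) (MV.pf_det PM.id) ⟨1, by simp⟩
  have n3 : M₀ * u = (l' 2 • c') * M₀.map r := ext_semi r fun β => pR_inj (by
    have k := congrArg Prod.fst (n1 p ⟨p1, r, hr, p2⟩ (pP β, 0))
    simp only [nM_apply, n1_pP, map_zero, p3, p4.pR_fst, inj, Bool.false_eq_true, if_false,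
      map_mulVec', mulVec_mulVec] at k
    exact k.symm)
  obtain ⟨φ₁, k1, k2⟩ := c1.dat.ov.onto σ (MV.os_σ h)
  obtain ⟨ε, _, _, _, k3⟩ := c1.dat.sim_of k1 k2
  obtain rfl : ε = true := by
    cases ε
    · exact absurd ((c1.inn φ₁ k1 σ k2).1 (k3.inner_iff.2 rfl)) (σq_ne h)
    · rfl
  obtain ⟨a, a1, a2, a3, a4⟩ := exists_herm h c1.dat p1 p2 (htr p p1 r hr p2) k1 k3
    (g1' φ₁ k1 σ k2 ⟨h.σd, h.σq⟩)
  obtain ⟨R, r1, r2, r3⟩ := hyp h a1 a2 a3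
  have r4 : R.det ≠ 0 := by simp [r1]
  have r5 : R⁻¹.det = 1 := by rw [m3_det_inv, r1, inv_one]
  have r6 := actA_mem r5
  have r7 := p4.comm_actA p2 r5 (by rw [m3_map_inv r r4, r2])
  have r8 : MV.ActA id false R⁻¹ (actA _ r5) := fun δ v =>
    TNF.slA (γ := 1) ((td_one r5).tnf one_ne_zero) (mem_S6.1 r6).semi δ v
  generalize actA _ r5 = ψ₁ at r6 r7 r8
  have c2 := cfg_tr' c1 r6 p1 p2 fun β => by rw [← Perm.mul_apply, r7, Perm.mul_apply, p3]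
  have p5 : p ∈ tr ψ₁ Φ₁ := by rwa [mem_tr, permCongr_eq_mul, ← r7, mul_inv_cancel_right]
  have k4 : ψ₁.symm.permCongr φ₁ ∈ tr ψ₁ Φ₁ := symm_mem_tr.2 k1
  obtain ⟨_, _, m, k5⟩ := sim_conj k3 r6
  have k6 := MV.ActA.tr (φ := ψ₁.symm.permCongr φ₁) (γ := σ) (κ := true) (a := a) r8 (by simp [r5])
    (by rwa [← Equiv.permCongr_symm, Equiv.apply_symm_apply])
  rw [if_pos rfl, m3_inv_inv r4, m3_map_inv σ r4, m3_inv_inv (MV.det_map_ne r4 σ), r3] at k6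
  have m2 := mov_S6 m1 r6
  generalize ψ₁.symm.permCongr φ₁ = φ at k4 k5 k6
  generalize tr ψ₁ Φ₁ = Φ₂ at c2 p5 k4 m2
  obtain ⟨b, c, l, k7⟩ := tnf_of_actA k5 k6 (by simp [hyK_det, a1])
  obtain ⟨lam, s1, s2⟩ := herm_rel k7 h.σ2
    (c2.dat.lin _ (mul_mem k4 k4) (semi_one.1 (h.σ2 ▸ k5.semi.mul k5.semi)))
  obtain ⟨z, z1, z2⟩ := c2.dat.exists_Z6 (mul_mem p5 k4) (mul_mem k4 p5) (p2.mul k5.semi)
    (h.rσ ▸ k5.semi.mul p2)
  obtain ⟨t, t1, t2⟩ := comm_rel k7 p4 h.rσ z1 z2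
  obtain ⟨M, M1, M2, M3⟩ := lag h (k := a.det) (by simp [k7.ne, k7.dc]) (det_rel k7).1 s1 s2
    (hu ▸ t1) t2 n2 n3 (by rw [(det_rel p4).2, hu]; simp) (by rw [(det_rel k7).2, hyK_det, neg_neg])
    (by rw [← m3_det_map, a3]) (by rw [← m3_det_map, ← a2, det_transpose])
  obtain ⟨e1, e2⟩ := p4.exL_inner M1 p2 (hu ▸ M2)
  have e3 := (mem_S6.1 (exL_mem M)).semi.symm_lin
  have c3 := cfg_tr' c2 (exL_mem M) p5 p2 (hu ▸ e1)
  exact ⟨_, mov_S6 m2 (exL_mem M), c3, grOn_gen h c3.dat (symm_mem_tr.2 p5)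
    ((semi_congr e3).2 p2) e2 (symm_mem_tr.2 k4) ((semi_congr e3).2 k5.semi)
    (k7.exL_outer M1 k5.semi M3)⟩

end Vale.Agent.P011N.Cl.B2
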