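import Vale.Agent.P011N.Cl.TC.Gen

/-!
A rational grading over the totally imaginary field: the geometric part.
-/

namespace Vale.Agent.P011N.Cl

open Vale.Agent.P011.MPQ Vale.Agent.P011.D4 Vale.Agent.P011.D4.Oct Vale.Agent.P011.E6 Equiv Matrix
open Vale.Agent.P011.E6O Vale.Agent.P011.E6.Alb

variable {F : Type} [Field F] [CharZero F]

section tnf

variable {γ : Gl F} {ε κ : Bool} {a b c a' b' c' : M3 F} {l l' : Fin 3 → F} {m m' : F}

theorem TNF.of_swE {φ : W1 F → W1 F} (h : TNF γ false κ a b c l m (Cl.swE ε ∘ φ)) :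
    TNF γ ε κ a b c l m φ := by
  refine ⟨h.da, h.db, h.dc, h.ne, h.ne', fun X Y Z => ?_, fun X Y Z => ?_, h.r0, h.r1, h.r2⟩
  · have h1 := congrArg (Cl.swE ε) (h.fst X Y Z)
    rw [Function.comp_apply, swE_swE, swE_inj] at h1
    simpa using h1
  · have h1 := congrArg (Cl.swE ε) (h.snd X Y Z)
    rw [Function.comp_apply, swE_swE, swE_inj] at h1
    simpa using h1

theorem TNF.act_comp {ψ φ : W1 F → W1 F} (h' : TNF id false false a' b' c' l' m' ψ)
    (h : TNF γ false κ a b c l m φ) :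
    TNF γ false κ (a' * a) (b' * b) (c' * c) (l' * l) (m' * m) (ψ ∘ φ) := by
  refine ⟨by simp [h.da, h'.da], by simp [h.db, h'.db], by simp [h.dc, h'.dc],
    fun i => mul_ne_zero (h'.ne i) (h.ne i), mul_ne_zero h'.ne' h.ne', fun X Y Z => ?_,
    fun X Y Z => ?_, ?_, ?_, ?_⟩
  · rw [Function.comp_apply, h.fst]
    refine (h'.fst _ _ _).trans ?_
    simp [tp, Matrix.mul_inv_rev, Matrix.mul_assoc, smul_smul]
  · rw [Function.comp_apply, h.snd]
    refine (h'.snd _ _ _).trans ?_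
    simp [tp, Matrix.mul_inv_rev, Matrix.mul_assoc, smul_smul, mul_div_mul_comm]
  · simp only [Pi.mul_apply, det_mul]
    linear_combination (l 0 ^ 2 * a.det) * h'.r0 + (l' 1 * l' 2 * b'.det) * h.r0
  · simp only [Pi.mul_apply, det_mul]
    linear_combination (l 1 ^ 2 * b.det) * h'.r1 + (l' 2 * l' 0 * c'.det) * h.r1
  · simp only [Pi.mul_apply, det_mul]
    linear_combination (l 2 ^ 2 * c.det) * h'.r2 + (l' 0 * l' 1 * a'.det) * h.r2

/-- The normal form of a similitude which normalizes the first factor. -/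
theorem tnf_of_actA {φ : Perm (W1 F)} {ν₁ ν₂ : F} (hs : Sim6 γ ε ν₁ ν₂ m φ)
    (h : MV.ActA γ κ a φ) (ha : a.det ≠ 0) : ∃ b c l, TNF γ ε κ a b c l m φ := by
  have h1 : TD a 1 (diagonal ![a.det ^ 2, 1, 1]) ![1, a.det, 1] := by
    refine ⟨ha, by simp, by simp [Fin.prod_univ_three, ha], fun i => ?_, by simp,
      by simp [Fin.prod_univ_three], by simp [Fin.prod_univ_three, sq]⟩
    fin_cases i <;> simp [ha]
  have h2 := sim6_one.2 (h1.sim one_ne_zero)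
  have h3 := ((h2.symm.comp (sim6_one.2 (sim6_swE ε))).comp hs).cast (γ' := γ) (ε' := false)
    (l' := m) (by simp) (by simp) rfl rfl (by simp)
  change Sim6 _ _ _ _ _ ((h1.act one_ne_zero)⁻¹ * swE ε * φ : Perm (W1 F)) at h3
  have h4 : MV.ActA γ κ 1 ((h1.act one_ne_zero)⁻¹ * swE ε * φ : Perm (W1 F)) := fun δ v => by
    rw [Perm.mul_apply, Perm.mul_apply, Perm.inv_eq_iff_eq, h, swE_slA,
      TNF.slA (γ := 1) (h1.tnf one_ne_zero) h2.semi]
    cases κ <;> simp [show ∀ X : M3 F, X.map ⇑(1 : Gl F) = X from fun _ => rfl]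
  obtain ⟨b, c, l, h5, -⟩ := MV.tnf_of_act nfStmt h3 (h4.cm (by simp) (by simp)) h4 (by simp)
  have h6 := (h1.tnf one_ne_zero).act_comp h5
  rw [Matrix.mul_one, one_mul m, ← Perm.coe_mul, mul_assoc, mul_inv_cancel_left] at h6
  exact ⟨_, _, _, TNF.of_swE h6⟩

theorem TNF.comm_actA {φ : Perm (W1 F)} (h : TNF γ ε false 1 b c l m φ) (hs : Semi γ φ)
    {T : M3 F} (hT : T.det = 1) (hγ : T.map γ = T) : φ * actA T hT = actA T hT * φ := by
  have h0 : T⁻¹.map γ = T⁻¹ := by rw [m3_map_inv γ (by simp [hT]), hγ]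
  have h1 := (mem_S6.1 (actA_mem hT)).semi
  ext1 ⟨x, y⟩
  obtain ⟨X, Y, Z, rfl⟩ := exists_mkT x
  obtain ⟨X', Y', Z', rfl⟩ := exists_mkT y
  rw [show ((mkT X Y Z, mkT X' Y' Z') : W1 F) = inj false (mkT X Y Z) + inj true (mkT X' Y' Z') by
    simp [inj], Perm.mul_apply, Perm.mul_apply, (semi_one.2 h1).add, hs.add, hs.add,
    (semi_one.2 h1).add, actA_inj, actA_inj]
  simp only [inj, Bool.false_eq_true, if_false, if_true]
  rw [h.fst, h.fst, h.snd, h.snd, actA_inj, actA_inj]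
  simp [tp, Matrix.map_mul, hγ, h0, Matrix.mul_assoc]

/-- The hyperbolic matrix. -/
abbrev hyK (k : F) : M3 F := !![0, 1, 0; 1, 0, 0; 0, 0, k]

omit [CharZero F] in
theorem hyK_inv {k : F} (hk : k ≠ 0) : (hyK k)⁻¹ = hyK k⁻¹ :=
  Matrix.inv_eq_left_inv (by
    ext i j
    fin_cases i <;> fin_cases j <;> simp [Matrix.mul_apply, Fin.sum_univ_three, hk])

omit [CharZero F] in
theorem hyK_mul (k : F) : hyK k *ᵥ Pi.single 0 1 = Pi.single 1 1 ∧
    hyK k *ᵥ Pi.single 1 1 = Pi.single 0 1 ∧ Pi.single 0 1 ᵥ* hyK k = Pi.single 1 1 ∧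
    Pi.single 1 1 ᵥ* hyK k = Pi.single 0 1 := by
  refine ⟨?_, ?_, ?_, ?_⟩ <;> ext i <;> fin_cases i <;> simp

omit [CharZero F] in
theorem hyK_det (k : F) : (hyK k).det = -k := by simp [det_fin_three]

variable {φ : W1 F → W1 F} {k : F}

theorem TNF.hy_ne (h : TNF γ ε κ (hyK k) b c l m φ) : k ≠ 0 := by
  simpa [hyK_det] using h.da

theorem TNF.hy_fst (h : TNF γ true true (hyK k) b c l m φ) (β : Fin 3 → F) :
    φ (pP β, 0) = (0, pR ((l 2 • c) *ᵥ fun i => γ (β i))) ∧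
    φ (pS β, 0) = (0, pQ ((l 2 • c) *ᵥ fun i => γ (β i))) ∧
    φ (pR β, 0) = (0, pP ((l 0 • b⁻¹ᵀ) *ᵥ fun i => γ (β i))) ∧
    φ (pQ β, 0) = (0, pS ((l 0 • b⁻¹ᵀ) *ᵥ fun i => γ (β i))) := by
  refine ⟨?_, ?_, ?_, ?_⟩ <;> simp only [pP, pS, pR, pQ] <;> rw [h.fst, hyK_inv h.hy_ne] <;>
    simp only [inj, tp, if_true, map_vecMulVec', map_single', transpose_vecMulVec, mul_vecMulVec,
      vecMulVec_mul, hyK_mul, smul_mulVec, smul_vecMulVec, vecMulVec_smul, mulVec_transpose,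
      Matrix.map_zero _ (map_zero γ), transpose_zero, mul_zero, zero_mul, smul_zero]

theorem TNF.hy_snd (h : TNF γ true true (hyK k) b c l m φ) (β : Fin 3 → F) :
    φ (0, pP β) = (pR (((m / l 0) • b) *ᵥ fun i => γ (β i)), 0) ∧
    φ (0, pS β) = (pQ (((m / l 0) • b) *ᵥ fun i => γ (β i)), 0) ∧
    φ (0, pR β) = (pP (((m / l 2) • c⁻¹ᵀ) *ᵥ fun i => γ (β i)), 0) ∧
    φ (0, pQ β) = (pS (((m / l 2) • c⁻¹ᵀ) *ᵥ fun i => γ (β i)), 0) := by
  refine ⟨?_, ?_, ?_, ?_⟩ <;> simp only [pP, pS, pR, pQ] <;> rw [h.snd, hyK_inv h.hy_ne] <;>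
    simp only [inj, tp, if_true, map_vecMulVec', map_single', transpose_vecMulVec, mul_vecMulVec,
      vecMulVec_mul, hyK_mul, smul_mulVec, smul_vecMulVec, vecMulVec_smul, mulVec_transpose,
      Matrix.map_zero _ (map_zero γ), transpose_zero, mul_zero, zero_mul, smul_zero,
      Bool.not_true, Bool.false_eq_true, if_false]

end tnf

/-! The opposite unipotent elements. -/

theorem hyK_det_one : (hyK (-1 : F)).det = 1 := by rw [hyK_det, neg_neg]

/-- The element which exchanges the two halves. -/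
noncomputable def sX : Perm (W1 F) := tp6 * actA (hyK (-1)) hyK_det_one

theorem sX_mem : (sX : Perm (W1 F)) ∈ S6 (1 : Fˣ) 1 1 := mul_mem tp6_mem (actA_mem _)

theorem sX_inj (ε : Bool) (β z : Fin 3 → F) :
    sX (inj ε (pP β + pR z)) = inj ε (pP z + pR β) ∧
      sX (inj ε (pS β + pQ z)) = inj ε (pS z + pQ β) := by
  constructor <;> simp only [sX, Perm.mul_apply, pP, pR, pS, pQ, mkT_add, actA_inj, tp6_inj,
    tp1_mkT, add_zero, zero_add, hyK_inv (neg_ne_zero.2 (one_ne_zero (α := F))), mul_vecMulVec,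
    vecMulVec_mul, hyK_mul, transpose_vecMulVec, transpose_zero]

/-- The element which moves the two halves to the graphs of `M` and `-M`. -/
noncomputable def exL (M : M3 F) : Perm (W1 F) := ex M * (sX * ex (-(2 : F)⁻¹ • M⁻¹) * sX)

theorem exL_mem (M : M3 F) : exL M ∈ S6 (1 : Fˣ) 1 1 :=
  mul_mem (ex_mem M) (mul_mem (mul_mem sX_mem (ex_mem _)) sX_mem)

theorem exL_pP (M : M3 F) (ε : Bool) (β : Fin 3 → F) :
    exL M (inj ε (pP β)) = inj ε (pP β + pR (tE ε M *ᵥ β)) := by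
  have h1 := (sX_inj ε β 0).1
  have h2 := (sX_inj ε 0 β).1
  simp only [pR_zero, pP_zero, add_zero, zero_add] at h1 h2
  rw [exL, Perm.mul_apply, Perm.mul_apply, Perm.mul_apply, h1, ex_pR, h2, ex_pP]

theorem exL_pQ {M : M3 F} (hM : M.det ≠ 0) (ε : Bool) (β : Fin 3 → F) :
    exL M (inj ε (pQ ((2 : F) • tE ε M *ᵥ β))) = inj ε (pS β + pQ (tE ε M *ᵥ β)) := by
  have h0 : (tE ε M).det ≠ 0 := by cases ε <;> simp [tE, hM]
  have h1 := (sX_inj ε 0 ((2 : F) • tE ε M *ᵥ β)).2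
  simp only [pS_zero, pQ_zero, add_zero, zero_add] at h1
  have h2 : -(tE ε (-(2 : F)⁻¹ • M⁻¹) *ᵥ (2 : F) • tE ε M *ᵥ β) = β := by
    rw [show tE ε (-(2 : F)⁻¹ • M⁻¹) = -(2 : F)⁻¹ • (tE ε M)⁻¹ by
      cases ε <;> simp [tE, transpose_nonsing_inv], smul_mulVec, mulVec_smul, mulVec_mulVec,
      m3_inv_mul h0, one_mulVec, smul_smul]
    simp
  have h3 := (sim6_one.2 (mem_S6.1 (ex_mem M))).semi
  rw [exL, Perm.mul_apply, Perm.mul_apply, Perm.mul_apply, h1, ex_pS, h2, (sX_inj ε _ β).2,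
    inj_add', h3.add, ex_pS, ex_pQ, ← inj_add', add_assoc, ← pQ_add]
  congr 3
  module

theorem exists_exL {M : M3 F} (hM : M.det ≠ 0) (ε : Bool) (z : Fin 3 → F) :
    ∃ β, z = (2 : F) • tE ε M *ᵥ β := by
  have h0 : (tE ε M).det ≠ 0 := by cases ε <;> simp [tE, hM]
  exact ⟨(2 : F)⁻¹ • (tE ε M)⁻¹ *ᵥ z, by
    rw [mulVec_smul, mulVec_mulVec, m3_mul_inv h0, one_mulVec, smul_inv_smul₀ two_ne_zero]⟩

theorem map_mulVec' (γ : Gl F) (M : M3 F) (β : Fin 3 → F) :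
    (fun i => γ ((M *ᵥ β) i)) = M.map γ *ᵥ fun i => γ (β i) := by
  ext i
  simp [mulVec, dotProduct]

theorem semi_inl {γ : Gl F} {φ : W1 F → W1 F} (h : Semi γ φ) (x y : J1 F) :
    φ (x + y, 0) = φ (x, 0) + φ (y, 0) := by
  rw [← h.add]
  simp

theorem semi_inr {γ : Gl F} {φ : W1 F → W1 F} (h : Semi γ φ) (x y : J1 F) :
    φ (0, x + y) = φ (0, x) + φ (0, y) := by
  rw [← h.add]
  simp

section cm

variable {γ : Gl F} {b c M : M3 F} {l : Fin 3 → F} {m k : F} {φ : Perm (W1 F)}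

theorem sim_conj {ε : Bool} {ν₁ ν₂ : F} (hs : Sim6 γ ε ν₁ ν₂ m φ) {g : Perm (W1 F)}
    (hg : g ∈ S6 (1 : Fˣ) 1 1) :
    ∃ ν₁' ν₂' m', Sim6 γ ε ν₁' ν₂' m' (g.symm.permCongr φ : Perm (W1 F)) :=
  (mem_S6.1 hg).tr (by rwa [← Equiv.permCongr_symm, Equiv.apply_symm_apply])

theorem TNF.exL_inner (h : TNF γ false false 1 b c l m φ) (hM : M.det ≠ 0) (hs : Semi γ φ)
    (hc : M * (l 0 • b⁻¹ᵀ) = (l 2 • c) * M.map γ) :
    (∀ β, φ (exL M (pP β, 0)) = exL M (pP ((l 0 • b⁻¹ᵀ) *ᵥ fun i => γ (β i)), 0)) ∧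
      Cm false ((exL M).symm.permCongr φ : Perm (W1 F)) := by
  have h1 : ∀ β, φ (exL M (pP β, 0)) = exL M (pP ((l 0 • b⁻¹ᵀ) *ᵥ fun i => γ (β i)), 0) :=
    fun β => by
      have e := exL_pP M false
      simp only [inj, tE, Bool.false_eq_true, if_false] at e
      rw [e, e, semi_inl hs, h.pP_fst, h.pR_fst, map_mulVec', mulVec_mulVec, mulVec_mulVec, hc]
      simp [inj]
  have h2 : Mᵀ * ((m / l 2) • c⁻¹ᵀ) = ((m / l 0) • b) * Mᵀ.map γ := by
    have h3 := congrArg (fun X => ((m / l 0 / l 2) • b) * Xᵀ * c⁻¹ᵀ) hc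
    have h0 := h.ne 0
    have h2 := h.ne 2
    simp only [transpose_mul, transpose_smul, transpose_transpose, Matrix.smul_mul,
      Matrix.mul_smul, smul_smul, Matrix.mul_assoc, m3_mul_inv' h.db] at h3
    rw [← transpose_mul c⁻¹ c, m3_inv_mul h.dc, transpose_one, Matrix.mul_one] at h3
    rw [Matrix.mul_smul, Matrix.smul_mul, transpose_map]
    convert h3 using 2 <;> field_simp
  obtain ⟨_, _, _, h3⟩ := sim_conj (h.sim hs) (exL_mem M)
  refine ⟨h1, gr_false h3 (fun β => ⟨(l 0 • b⁻¹ᵀ) *ᵥ fun i => γ (β i), ?_⟩) fun z => ?_⟩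
  · rw [permCongr_apply, symm_symm, symm_apply_eq, h1]
    simp only [inj, Bool.false_eq_true, if_false]
  · obtain ⟨β, rfl⟩ := exists_exL hM true z
    refine ⟨(2 : F) • tE true M *ᵥ (((m / l 2) • c⁻¹ᵀ) *ᵥ fun i => γ (β i)), ?_⟩
    have e := exL_pQ hM true
    rw [permCongr_apply, symm_symm, symm_apply_eq, Bool.not_false, e]
    simp only [inj, tE, if_true] at e ⊢
    rw [e, semi_inr hs, h.pS_snd, h.pQ_snd, map_mulVec', mulVec_mulVec, mulVec_mulVec, h2]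
    simp [inj]

theorem TNF.exL_outer (h : TNF γ true true (hyK k) b c l m φ) (hM : M.det ≠ 0) (hs : Semi γ φ)
    (hc : Mᵀ * (l 0 • b⁻¹ᵀ) * M.map γ = l 2 • c) :
    Cm false ((exL M).symm.permCongr φ : Perm (W1 F)) := by
  have h2 : M * ((m / l 2) • c⁻¹ᵀ) * Mᵀ.map γ = (m / l 0) • b := by
    have h0 := h.ne 0
    have h2 := h.ne 2
    have h3 : c = (l 0 / l 2) • (Mᵀ * b⁻¹ᵀ * M.map γ) := by
      rw [Matrix.mul_smul, Matrix.smul_mul] at hc
      rw [div_eq_inv_mul, mul_smul, hc, inv_smul_smul₀ h2]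
    have h4 := MV.det_map_ne hM γ
    rw [h3, m3_inv_smul (div_ne_zero h0 h2) (by simp [hM, h4, h.db]), Matrix.mul_inv_rev,
      Matrix.mul_inv_rev, transpose_map]
    simp only [transpose_smul, transpose_mul, MV.inv_tr, transpose_transpose, m3_inv_inv h.db,
      Matrix.mul_smul, Matrix.smul_mul, smul_smul, Matrix.mul_assoc, m3_mul_inv' hM]
    rw [← transpose_mul, m3_mul_inv h4, transpose_one, Matrix.mul_one]
    congr 1
    field_simp
  obtain ⟨_, _, _, h3⟩ := sim_conj (h.sim hs) (exL_mem M)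
  refine gr_false h3 (fun β => ⟨((l 0 • b⁻¹ᵀ) * M.map γ) *ᵥ fun i => γ (β i), ?_⟩) fun z => ?_
  · have e := exL_pP M false
    rw [permCongr_apply, symm_symm, symm_apply_eq, exL_pP]
    simp only [inj, tE, Bool.false_eq_true, if_false, if_true] at e ⊢
    rw [e, semi_inl hs, (h.hy_fst _).1, (h.hy_fst _).2.2.1, map_mulVec', mulVec_mulVec,
      mulVec_mulVec, ← Matrix.mul_assoc, hc]
    simp [add_comm]
  · obtain ⟨β, rfl⟩ := exists_exL hM true z
    refine ⟨(2 : F) • tE false M *ᵥ ((((m / l 2) • c⁻¹ᵀ) * Mᵀ.map γ) *ᵥ fun i => γ (β i)), ?_⟩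
    have e := exL_pQ hM true
    rw [permCongr_apply, symm_symm, symm_apply_eq, Bool.not_true, exL_pQ hM]
    simp only [inj, tE, Bool.false_eq_true, if_false, if_true] at e ⊢
    rw [e, semi_inr hs, (h.hy_snd _).2.1, (h.hy_snd _).2.2.2, map_mulVec', mulVec_mulVec,
      mulVec_mulVec, ← Matrix.mul_assoc, h2]
    simp [add_comm]

end cm

end Vale.Agent.P011N.Cl
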