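import Vale.Agent.P011N.Cl.Defs3
import Vale.Agent.P011N.Cl.JT.Vop

/-!
The coordinates of the first Tits construction: calculus.
-/

namespace Vale.Agent.P011N.Cl

open Vale.Agent.P011.MPQ Vale.Agent.P011.D4 Vale.Agent.P011.D4.Oct Vale.Agent.P011.E6 Equiv Matrix
open Vale.Agent.P011.E6O Vale.Agent.P011.E6.Alb

variable {F : Type} [Field F]

theorem hal1 : (1 : F) ^ 2 = ((1 : Fˣ) : F) := by simp

theorem tf_T (x y : J1 F) :
    tf x y = (tY x * tY y).trace + (tX x * tZ y).trace + (tZ x * tX y).trace := by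
  simp only [tf, bil, Sl.norm_co hal1]
  simp [tX, tY, tZ, Sl.XX, Sl.YY, Sl.ZZ, Matrix.trace_fin_three]
  ring

theorem tX_adj (x : J1 F) : tX (adj x) = (tZ x).adjugate - tX x * tY x := Sl.YY_adj hal1 x

theorem tY_adj (x : J1 F) : tY (adj x) = (tY x).adjugate - tZ x * tX x := Sl.XX_adj hal1 x

theorem tZ_adj (x : J1 F) : tZ (adj x) = (tX x).adjugate - tY x * tZ x := Sl.ZZ_adj hal1 x

/-- The polarisation of the adjugate. -/
def mx (A B : M3 F) : M3 F := (A + B).adjugate - A.adjugate - B.adjugate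

@[simp] theorem mx_zero_left (A : M3 F) : mx 0 A = 0 := by simp [mx]

@[simp] theorem mx_zero_right (A : M3 F) : mx A 0 = 0 := by simp [mx]

theorem mx_comm (A B : M3 F) : mx A B = mx B A := by
  rw [mx, mx, add_comm, sub_right_comm]

theorem mx_eq (A B : M3 F) : mx A B =
    !![A 1 1 * B 2 2 - A 1 2 * B 2 1 - A 2 1 * B 1 2 + A 2 2 * B 1 1,
       -(A 0 1 * B 2 2) + A 0 2 * B 2 1 + A 2 1 * B 0 2 - A 2 2 * B 0 1,
       A 0 1 * B 1 2 - A 0 2 * B 1 1 - A 1 1 * B 0 2 + A 1 2 * B 0 1;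
       -(A 1 0 * B 2 2) + A 1 2 * B 2 0 + A 2 0 * B 1 2 - A 2 2 * B 1 0,
       A 0 0 * B 2 2 - A 0 2 * B 2 0 - A 2 0 * B 0 2 + A 2 2 * B 0 0,
       -(A 0 0 * B 1 2) + A 0 2 * B 1 0 + A 1 0 * B 0 2 - A 1 2 * B 0 0;
       A 1 0 * B 2 1 - A 1 1 * B 2 0 - A 2 0 * B 1 1 + A 2 1 * B 1 0,
       -(A 0 0 * B 2 1) + A 0 1 * B 2 0 + A 2 0 * B 0 1 - A 2 1 * B 0 0,
       A 0 0 * B 1 1 - A 0 1 * B 1 0 - A 1 0 * B 0 1 + A 1 1 * B 0 0] := by
  ext i j
  rw [mx, Matrix.adjugate_fin_three, Matrix.adjugate_fin_three, Matrix.adjugate_fin_three]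
  fin_cases i <;> fin_cases j <;> simp <;> ring

theorem cross_eq_adj (x y : J1 F) : cross x y = adj (x + y) - adj x - adj y := by
  rw [adj_add]
  abel

theorem tX_cross (x y : J1 F) :
    tX (cross x y) = mx (tZ x) (tZ y) - (tX x * tY y + tX y * tY x) := by
  simp only [cross_eq_adj, map_sub, tX_adj, map_add, mx, add_mul, mul_add]
  abel

theorem tY_cross (x y : J1 F) :
    tY (cross x y) = mx (tY x) (tY y) - (tZ x * tX y + tZ y * tX x) := by
  simp only [cross_eq_adj, map_sub, tY_adj, map_add, mx, add_mul, mul_add]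
  abel

theorem tZ_cross (x y : J1 F) :
    tZ (cross x y) = mx (tX x) (tX y) - (tY x * tZ y + tY y * tZ x) := by
  simp only [cross_eq_adj, map_sub, tZ_adj, map_add, mx, add_mul, mul_add]
  abel

variable [CharZero F]

theorem ca_mkq (p q r s : F) : ca 1 (mkq (1 : Fˣ) 1 1 p q r s) = p :=
  (mkq_co two_ne_zero hal1 p q r s).1

theorem cb_mkq (p q r s : F) : cb 1 (mkq (1 : Fˣ) 1 1 p q r s) = q :=
  (mkq_co two_ne_zero hal1 p q r s).2.1

theorem cg_mkq (p q r s : F) : cg 1 (mkq (1 : Fˣ) 1 1 p q r s) = r :=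
  (mkq_co two_ne_zero hal1 p q r s).2.2.1

theorem cd_mkq (p q r s : F) : cd 1 (mkq (1 : Fˣ) 1 1 p q r s) = s :=
  (mkq_co two_ne_zero hal1 p q r s).2.2.2

@[simp] theorem tX_mkT (X Y Z : M3 F) : tX (mkT X Y Z) = X := by
  ext i j
  fin_cases i <;> fin_cases j <;> simp [tX, Sl.YY, mkT, ca_mkq, cg_mkq, cd_mkq]

@[simp] theorem tY_mkT (X Y Z : M3 F) : tY (mkT X Y Z) = Y := by
  ext i j
  fin_cases i <;> fin_cases j <;> simp [tY, Sl.XX, mkT, ca_mkq, cb_mkq]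

@[simp] theorem tZ_mkT (X Y Z : M3 F) : tZ (mkT X Y Z) = Z := by
  ext i j
  fin_cases i <;> fin_cases j <;> simp [tZ, Sl.ZZ, mkT, cb_mkq, cg_mkq, cd_mkq]

theorem ext_T {x y : J1 F} (h1 : tX x = tX y) (h2 : tY x = tY y) (h3 : tZ x = tZ y) : x = y :=
  Sl.ext_Tits two_ne_zero hal1 h2 h1 h3

theorem mkT_eta (x : J1 F) : mkT (tX x) (tY x) (tZ x) = x := ext_T (by simp) (by simp) (by simp)

theorem exists_mkT (x : J1 F) : ∃ X Y Z, x = mkT X Y Z := ⟨_, _, _, (mkT_eta x).symm⟩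

theorem mkT_inj {X Y Z X' Y' Z' : M3 F} :
    mkT X Y Z = mkT X' Y' Z' ↔ X = X' ∧ Y = Y' ∧ Z = Z' := by
  refine ⟨fun h => ⟨?_, ?_, ?_⟩, fun h => by rw [h.1, h.2.1, h.2.2]⟩
  · simpa using congrArg tX h
  · simpa using congrArg tY h
  · simpa using congrArg tZ h

@[simp] theorem mkT_zero : mkT (0 : M3 F) 0 0 = 0 := ext_T (by simp) (by simp) (by simp)

theorem mkT_eq_zero {X Y Z : M3 F} : mkT X Y Z = 0 ↔ X = 0 ∧ Y = 0 ∧ Z = 0 := by
  rw [← mkT_zero, mkT_inj]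

theorem mkT_add (X Y Z X' Y' Z' : M3 F) :
    mkT X Y Z + mkT X' Y' Z' = mkT (X + X') (Y + Y') (Z + Z') :=
  ext_T (by simp) (by simp) (by simp)

theorem mkT_sub (X Y Z X' Y' Z' : M3 F) :
    mkT X Y Z - mkT X' Y' Z' = mkT (X - X') (Y - Y') (Z - Z') :=
  ext_T (by simp) (by simp) (by simp)

theorem mkT_neg (X Y Z : M3 F) : -mkT X Y Z = mkT (-X) (-Y) (-Z) :=
  ext_T (by simp) (by simp) (by simp)

theorem mkT_smul (t : F) (X Y Z : M3 F) : t • mkT X Y Z = mkT (t • X) (t • Y) (t • Z) :=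
  ext_T (by simp) (by simp) (by simp)

theorem tf_mkT (X Y Z X' Y' Z' : M3 F) :
    tf (mkT X Y Z) (mkT X' Y' Z') = (Y * Y').trace + (X * Z').trace + (Z * X').trace := by
  simp [tf_T]

theorem adj_mkT (X Y Z : M3 F) :
    adj (mkT X Y Z) = mkT (Z.adjugate - X * Y) (Y.adjugate - Z * X) (X.adjugate - Y * Z) :=
  ext_T (by simp [tX_adj]) (by simp [tY_adj]) (by simp [tZ_adj])

theorem cross_mkT (X Y Z X' Y' Z' : M3 F) : cross (mkT X Y Z) (mkT X' Y' Z') =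
    mkT (mx Z Z' - (X * Y' + X' * Y)) (mx Y Y' - (Z * X' + Z' * X))
      (mx X X' - (Y * Z' + Y' * Z)) :=
  ext_T (by simp [tX_cross]) (by simp [tY_cross]) (by simp [tZ_cross])

theorem cub_mkT (X Y Z : M3 F) : cub (mkT X Y Z) = X.det + Y.det + Z.det - (X * Y * Z).trace := by
  have h := tf_adj_self (mkT X Y Z)
  rw [adj_mkT, tf_mkT] at h
  simp only [sub_mul, Matrix.adjugate_mul, Matrix.trace_sub, Matrix.trace_smul, Matrix.trace_one,
    Fintype.card_fin, smul_eq_mul] at h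
  rw [Matrix.trace_mul_cycle Z X Y, Matrix.trace_mul_cycle Y Z X] at h
  push_cast at h
  linear_combination (-1 / 3 : F) * h

theorem cub_T (x : J1 F) :
    cub x = (tX x).det + (tY x).det + (tZ x).det - (tX x * tY x * tZ x).trace := by
  rw [← cub_mkT, mkT_eta]

omit [CharZero F] in
theorem jA_mkT {F' : Type} [Field F'] {R : Type} [FunLike R F F'] [RingHomClass R F F'] (ι : R)
    (X Y Z : M3 F) :
    (jA ι (mkT X Y Z) : J1 F') = mkT (X.map ι) (Y.map ι) (Z.map ι) := by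
  simp [jA, jO, jQ, mkT, mkq, map_div₀, map_ofNat]

/-! The Lie algebra of the first factor. -/

/-- The action on one summand. -/
def sl1 : M3 F →ₗ[F] Module.End F (J1 F) :=
  LinearMap.mk₂ F (fun δ x => mkT (δ * tX x) 0 (-(tZ x * δ)))
    (fun δ δ' x => by simp [mkT_add, add_mul, mul_add, add_comm])
    (fun t δ x => by simp [mkT_smul])
    (fun δ x y => by simp [mkT_add, add_mul, mul_add, add_comm])
    (fun t δ x => by simp [mkT_smul])

theorem sl1_apply (δ : M3 F) (x : J1 F) : sl1 δ x = mkT (δ * tX x) 0 (-(tZ x * δ)) := rfl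

theorem sl1_mkT (δ X Y Z : M3 F) : sl1 δ (mkT X Y Z) = mkT (δ * X) 0 (-(Z * δ)) := by
  simp [sl1_apply]

/-- The action on the pairs. -/
def slL (δ : M3 F) : Module.End F (W1 F) := (sl1 δ).prodMap (sl1 δ)

theorem slL_apply (δ : M3 F) (v : W1 F) : slL δ v = slA δ v := rfl

theorem slA_eq (δ : M3 F) (v : W1 F) : slA δ v = (sl1 δ v.1, sl1 δ v.2) := rfl

theorem slA_inj (δ : M3 F) (ε : Bool) (x : J1 F) : slA δ (inj ε x) = inj ε (sl1 δ x) := by
  cases ε <;> simp [slA_eq, inj]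

theorem slA_neg (δ : M3 F) (v : W1 F) : slA (-δ) v = -slA δ v := by simp [slA_eq]

theorem slA_smul (t : F) (δ : M3 F) (v : W1 F) : slA (t • δ) v = t • slA δ v := by simp [slA_eq]

theorem slA_add (δ δ' : M3 F) (v : W1 F) : slA (δ + δ') v = slA δ v + slA δ' v := by
  simp [slA_eq]

theorem slA_sub (δ δ' : M3 F) (v : W1 F) : slA (δ - δ') v = slA δ v - slA δ' v := by
  simp [slA_eq]

theorem sl1_inj {δ δ' : M3 F} (h : ∀ x, sl1 δ x = sl1 δ' x) : δ = δ' := by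
  simpa [sl1_mkT, mkT_inj] using h (mkT 1 0 0)

theorem tf_sl1 (δ : M3 F) (x y : J1 F) : tf (sl1 δ x) y + tf x (sl1 δ y) = 0 := by
  simp only [tf_T, sl1_apply, tX_mkT, tY_mkT, tZ_mkT, Matrix.mul_neg, Matrix.neg_mul,
    Matrix.trace_neg, zero_mul, mul_zero, Matrix.trace_zero, ← Matrix.mul_assoc]
  rw [Matrix.trace_mul_cycle (tX x) (tZ y) δ]
  ring

theorem tf_adj_sl1 (δ : M3 F) (x : J1 F) :
    tf (adj x) (sl1 δ x) = δ.trace * ((tX x).det - (tZ x).det) := by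
  simp only [tf_T, sl1_apply, tX_mkT, tY_mkT, tZ_mkT, tX_adj, tZ_adj, Matrix.mul_neg,
    Matrix.trace_neg, mul_zero, Matrix.trace_zero, ← Matrix.mul_assoc, sub_mul,
    Matrix.adjugate_mul, Matrix.trace_sub]
  rw [Matrix.trace_mul_cycle (tX x).adjugate δ (tX x), Matrix.mul_adjugate,
    Matrix.trace_mul_cycle (tY x * tZ x) δ (tX x), ← Matrix.mul_assoc]
  simp only [Matrix.smul_mul, Matrix.one_mul, Matrix.trace_smul, smul_eq_mul]
  ring

theorem slL_mem {δ : M3 F} (h : δ.trace = 0) : slL δ ∈ s6 (1 : Fˣ) 1 1 :=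
  prodMap_mem_s6 (fun x => by rw [tf_adj_sl1, h, zero_mul]) (tf_sl1 δ)

theorem inS6_slL {δ : M3 F} (h : δ.trace = 0) : InS6 (slL δ) := inS6_iff.2 (slL_mem h)

theorem slL_brk (δ δ' : M3 F) : slL δ * slL δ' - slL δ' * slL δ = slL (δ * δ' - δ' * δ) :=
  LinearMap.ext fun v => by
    simp only [LinearMap.sub_apply, Module.End.mul_apply, slL_apply, slA, tX_mkT, tZ_mkT,
      Prod.mk_sub_mk, mkT_sub, sub_mul, mul_sub, Matrix.mul_assoc, Matrix.neg_mul, neg_neg,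
      sub_zero, neg_sub]

theorem slL_mul3 (δ δ' : M3 F) : slL δ * slL δ' * slL δ = slL (δ * δ' * δ) :=
  LinearMap.ext fun v => by
    simp only [Module.End.mul_apply, slL_apply, slA, tX_mkT, tZ_mkT, Matrix.mul_assoc,
      Matrix.neg_mul, neg_neg]

theorem slL_sq {δ : M3 F} (h : δ * δ = 0) : slL δ * slL δ = 0 :=
  LinearMap.ext fun v => by
    simp only [Module.End.mul_apply, slL_apply, slA, tX_mkT, tZ_mkT, Matrix.mul_assoc,
      Matrix.neg_mul, neg_neg, h, ← Matrix.mul_assoc δ δ, zero_mul, mul_zero, mkT_zero,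
      LinearMap.zero_apply, Prod.mk_zero_zero]

theorem Z6_slA {z : Perm (W1 F)} (hz : z ∈ Z6 (1 : Fˣ) 1 1) (δ : M3 F) (v : W1 F) :
    z (slA δ v) = slA δ (z v) := by
  obtain ⟨s, t, h⟩ := mem_Z6.1 hz
  simp [h, slA_eq]

end Vale.Agent.P011N.Cl
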